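import Vale.Agent.P141.H58.PSn
import Vale.Agent.P141.H677.FDb
import Vale.Agent.P141.H652.RedI

/-!
# P141, line (A), flow part: the energy factor of the shift error, bundle `FDs`

* `kF_dead`, `kF_line` : the killed input vanishes on the stopped squares, its lines in `x₀`;
* `mass_u`, `mass_v` : masses on the root;
* `eW_FDs` : **the number of the energy factor for the data of the flow part.**
-/

namespace Vale.Agent.P141.H58

open Finset Matrix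
open Vale.Agent.P141.PL (Pt iv hs ix mem_iv ix_ix cb mem_cb cx)
open Vale.Agent.P141.PL.H315 (Tri A2 avg)
open Vale.Agent.P141.H48 (BSl sst)
open Vale.Agent.P141.H305 (Cls ClsM kapM)
open Vale.Agent.P141.H677 (kF)
open Vale.Agent.P141.H677.Sk
open Vale.Agent.P141.H769 (iv_pt)
open Vale.Agent.P141.H550 (avg_prod)

noncomputable section

open scoped Classical

variable {ι : Type} [Fintype ι] [DecidableEq ι]

theorem kF_dead {Λ : ℝ} {a : ℤ × ℤ → ℝ} {K k : ℕ} {x0 x1 x3 : ℤ} (F : ℕ → Pt → ℝ)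
    (h : sst Λ a K k x1 x3) : kF Λ a K F k (x0, x1, x3) = 0 := by
  unfold H677.kF
  rw [if_pos (Or.inr h)]

/-- the lines of the killed input in the first variable -/
theorem kF_line {Λ e cP : ℝ} {a : ℤ × ℤ → ℝ} {n K : ℕ} {F : ℕ → Pt → ℝ} {Q : ℕ → Pt → Prop}
    (B : BSl n e cP F Q) (he : 0 ≤ e) {k : ℕ} (hk : k < n) (j x1 x3 : ℤ) :
    ∑ x0 ∈ iv k j, kF Λ a K F (k + 1) (x0, x1, x3) ^ 2 ≤ e * 2 ^ k := by
  by_cases h : sst Λ a K (k + 1) x1 x3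
  · have h1 : ∑ x0 ∈ iv k j, kF Λ a K F (k + 1) (x0, x1, x3) ^ 2 = 0 := by
      refine sum_eq_zero fun x0 _ => ?_
      rw [kF_dead F h]
      norm_num
    rw [h1]
    positivity
  · have h1 : ∑ x0 ∈ iv k j, kF Λ a K F (k + 1) (x0, x1, x3) ^ 2 =
        ∑ x0 ∈ iv k j, F (k + 1) (x0, x1, x3) ^ 2 := by
      refine sum_congr rfl fun x0 _ => ?_
      unfold H677.kF
      rw [if_neg]
      rintro (h2 | h2)
      · omega
      · exact h h2
    rw [h1]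
    exact B.l0 k hk j x1 x3

section mass

variable {K : ℕ} {x : Pt} {s r P : ℝ} {U : Tri} {g : ℤ → ℤ → ℝ} {u v : ℤ → ℤ → ι → ℝ}

theorem A2_sum (a : ℤ × ℤ → ℝ) (K : ℕ) (p q : ℤ) :
    ∑ z ∈ iv K (ix K p), ∑ y ∈ iv K (ix K q), a (z, y) ^ 2 = A2 K a p q * 4 ^ K := by
  unfold PL.H315.A2
  rw [iv_pt, iv_pt, avg_prod]
  have h5 : (4 : ℝ) ^ K = 2 ^ K * 2 ^ K := by rw [← mul_pow]; norm_num
  rw [h5, mul_comm, mul_assoc, ← H338.sum_iv' K (ix K p), mul_sum]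
  refine sum_congr rfl fun z _ => ?_
  rw [← H338.sum_iv']

omit [DecidableEq ι] in
theorem mass_u (C : Cls K x s r P U g u v) :
    ∑ z ∈ iv K (cx K x).1, ∑ y ∈ iv K (cx K x).2.1, u z y ⬝ᵥ u z y ≤ s * 4 ^ K := by
  have h1 : ∑ z ∈ iv K (cx K x).1, ∑ y ∈ iv K (cx K x).2.1, u z y ⬝ᵥ u z y ≤
      ∑ z ∈ iv K (ix K x.1), ∑ y ∈ iv K (ix K x.2.1), U.1 (z, y) ^ 2 := by
    refine sum_le_sum fun z hz => sum_le_sum fun y hy => ?_
    change z ∈ iv K (ix K x.1) at hz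
    change y ∈ iv K (ix K x.2.1) at hy
    rw [← iv_pt] at hz hy
    exact C.u_le z hz y hy
  refine h1.trans ?_
  rw [A2_sum]
  exact mul_le_mul_of_nonneg_right C.U_u2 (by positivity)

omit [DecidableEq ι] in
theorem mass_v (C : Cls K x s r P U g u v) :
    ∑ z ∈ iv K (cx K x).2.2, ∑ y ∈ iv K (cx K x).1, v y z ⬝ᵥ v y z ≤ s * 4 ^ K := by
  rw [sum_comm]
  have h1 : ∑ z ∈ iv K (cx K x).1, ∑ y ∈ iv K (cx K x).2.2, v z y ⬝ᵥ v z y ≤
      ∑ z ∈ iv K (ix K x.1), ∑ y ∈ iv K (ix K x.2.2), U.2.1 (z, y) ^ 2 := by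
    refine sum_le_sum fun z hz => sum_le_sum fun y hy => ?_
    change z ∈ iv K (ix K x.1) at hz
    change y ∈ iv K (ix K x.2.2) at hy
    rw [← iv_pt] at hz hy
    exact C.v_le z hz y hy
  refine h1.trans ?_
  rw [A2_sum]
  exact mul_le_mul_of_nonneg_right C.U_v2 (by positivity)

omit [DecidableEq ι] in
theorem pot_u (C : Cls K x s r P U g u v) : ∀ z ∈ iv K (cx K x).1, ∀ w : ι → ℝ,
    ((2 : ℝ) ^ K)⁻¹ * ∑ y ∈ iv K (cx K x).2.1, (u z y ⬝ᵥ w) ^ 2 ≤ P * (w ⬝ᵥ w) := by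
  intro z hz w
  change z ∈ iv K (ix K x.1) at hz
  rw [← iv_pt] at hz
  refine le_trans (le_of_eq ?_) (C.u_pot z hz w)
  rw [iv_pt, H338.avg_iv']
  rfl

end mass

/-- **The number of the energy factor, data of the flow part.** -/
theorem eW_FDs {q : H401.Num} {n : ℕ} {ez : ℝ} {F1 F2 F3 : ℕ → Pt → ℝ} {o : ℤ} {K : ℕ} {x : Pt}
    {s r : ℝ} {U : Tri} {g : ℤ → ℤ → ℝ} {u v : ℤ → ℤ → ι → ℝ} {A : FamA} {b C : FamV ι}
    {Q1 Q2 Q3 : ℕ → Pt → Prop} {v' : ℤ → ℤ → ι → ℝ} {sg : ℕ → Pt → ℝ}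
    (D : FDs q n ez F1 F2 F3 K x s r U g u v A b C Q1 Q2 Q3 v')
    (hcls : ClsM K x s r (q.L * q.t ^ (2 - q.c) * √s) (kapM q.L q.t q.a s r) U g u v)
    (ho : o = 1 ∨ o = -1) (hKn : K ≤ n) (ht : 0 < q.t) (hL : 1 ≤ q.L) (hs : 0 < s)
    (hr : 1 ≤ r) (hez : 0 ≤ ez) (hsg : ∀ k m, |sg k m| ≤ 1) (Ln : ℕ) (h : ℤ) :
    eW (q.al U K) o K (cx K x) sg (q.lam s r) u C h ≤
      8 ^ K * s * ez * (147 * (1 + (Ln : ℝ)) ^ 3 * (q.L * q.t ^ (2 - q.c) * √s / q.lam s r) +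
        384 * (((Ln : ℝ) + 2) ^ 2 + 2) / 2 ^ Ln * (lam1 q s r / q.lam s r)) := by
  have hl : 0 < q.lam s r := H401.Num.lam_pos ht hs hr
  have hr0 : 0 < r := by linarith
  have hl1 : 0 ≤ lam1 q s r := by
    unfold lam1
    have h1 : 0 < q.t ^ (-8 : ℝ) := Real.rpow_pos_of_pos ht _
    have h2 : 0 < r ^ (8 : ℝ) := Real.rpow_pos_of_pos hr0 _
    positivity
  have hP0 : 0 ≤ q.L * q.t ^ (2 - q.c) * √s := by
    have h1 : 0 < q.t ^ (2 - q.c) := Real.rpow_pos_of_pos ht _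
    have h2 : 0 ≤ q.L := by linarith
    positivity
  have hv'v : ∀ x' z, v' x' z ⬝ᵥ v' x' z ≤ v x' z ⬝ᵥ v x' z := by
    intro x' z
    rcases D.v_or x' z with h1 | h1
    · rw [h1]
    · rw [h1, dotProduct_zero]
      exact H922.dot_self_nonneg _
  have main := eW_num (q.al U K) ho K (cx K x) hsg hl u v' C
    (φ := fun x0 k z x' => kF q.Lm U.2.1 K F2 k (x0, x', z)) hez
    (fun z x' k => ¬ sst q.Lm U.2.1 K k x' z)
    (fun x0 k _ z _ x' _ => D.C_eq x0 (k + 1) z x')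
    (fun x0 k _ z _ x' _ hd => kF_dead F2 (not_not.1 hd))
    (fun k hk j z _ x' _ => kF_line D.B2 hez (by omega) j x' z)
    (lam1 := lam1 q s r) (P := q.L * q.t ^ (2 - q.c) * √s) (s := s) hl1 hP0
    (fun x' hx' k hk z hz hd => D.fib k hk x' hx' z hz hd)
    (pot_u hcls.toCls) (mass_u hcls.toCls)
    ((sum_le_sum fun z _ => sum_le_sum fun x' _ => hv'v x' z).trans (mass_v hcls.toCls)) Ln h
  refine main.trans ?_
  refine mul_le_mul_of_nonneg_left (add_le_add ?_ (le_of_eq ?_)) (by positivity)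
  · refine mul_le_mul_of_nonneg_right ?_ (div_nonneg hP0 hl.le)
    have h0 : (0 : ℝ) ≤ Ln := Nat.cast_nonneg _
    nlinarith [mul_nonneg h0 h0, mul_nonneg (mul_nonneg h0 h0) h0]
  · ring

end

end Vale.Agent.P141.H58
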