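import Vale.Agent.P141.H677.SkelTF
import Vale.Agent.P141.H652.GlueI

/-!
# P141, line (A), flow part: the shift error, Cauchy-Schwarz half

* `nf3_cs` : one node form against the gap energy of the pair `(A, b)`;
* `TS_nf3` : the node forms of `H795.TS` in the letters of `H677.nf3`, functions cut to the root and
  shifted;
* `TS_cs` : all nodes of one scale;
* `sum_nC` : the energy of the third function over the three planes is at most three times its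
  energy on the root;
* `PS_le` : the shift error is at most `√3 √W √P`, `W` the energy of the slot difference,
  `P` the gap energy of the pair `(A, b)` on the shifted grids.
-/

namespace Vale.Agent.P141.H58

open Finset Matrix
open Vale.Agent.P141.PL (Pt iv hs ix mem_iv ix_ix cb mem_cb cx)
open Vale.Agent.P141.PL.H560 (cbs bx0)
open Vale.Agent.P141.H677 (GA nf3 nf3_eq rt rv)
open Vale.Agent.P141.H677.Sk
open Vale.Agent.P141.H795 (TS E8 ys nd tr)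
open Vale.Agent.P141.H103 (qK)
open Vale.Agent.P141.H483 (hd)
open Vale.Agent.P141.H652 (gpT gpT_nonneg dot_le_sqrt cs_step)

noncomputable section

open scoped Classical

section node

variable {κ : Type*} [Fintype κ]

/-- the energy of the third function at a node -/
def nC (k : ℕ) (C : ℤ → ℤ → κ → ℝ) (m : Pt) : ℝ :=
  ∑ z ∈ iv k m.1, ∑ x ∈ iv k m.2.2, C z x ⬝ᵥ C z x

theorem nC_nonneg (k : ℕ) (C : ℤ → ℤ → κ → ℝ) (m : Pt) : 0 ≤ nC k C m :=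
  sum_nonneg fun _ _ => sum_nonneg fun _ _ => H922.dot_self_nonneg _

/-- **One node.** -/
theorem nf3_cs {k : ℕ} (hk : 1 ≤ k) (A : ℤ → ℤ → ℝ) (b C : ℤ → ℤ → κ → ℝ) (m : Pt) :
    |nf3 A b C k m| ≤ √(nC k C m) * √(gpT A b k m) := by
  rw [nf3_eq hk]
  refine (abs_sum_le_sum_abs _ _).trans ?_
  have h1 : ∀ z ∈ iv k m.1, |∑ x ∈ iv k m.2.2, hs k z * hs k x *
      (C z x ⬝ᵥ hd (qK A b z x) k m.2.1)| ≤ ∑ x ∈ iv k m.2.2,
        √(C z x ⬝ᵥ C z x) * √(hd (qK A b z x) k m.2.1 ⬝ᵥ hd (qK A b z x) k m.2.1) := by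
    intro z _
    refine (abs_sum_le_sum_abs _ _).trans (sum_le_sum fun x _ => ?_)
    rw [abs_mul, abs_mul, PL.abs_hs, PL.abs_hs, one_mul, one_mul]
    exact dot_le_sqrt _ _
  refine (sum_le_sum h1).trans ?_
  rw [← sum_product', ← Real.sqrt_mul (nC_nonneg ..)]
  unfold nC gpT
  rw [← sum_product', ← sum_product']
  refine Real.le_sqrt_of_sq_le ?_
  refine (sum_mul_sq_le_sq_mul_sq _ _ _).trans (le_of_eq ?_)
  congr 1
  · exact sum_congr rfl fun p _ => Real.sq_sqrt (H922.dot_self_nonneg _)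
  · exact sum_congr rfl fun p _ => Real.sq_sqrt (H922.dot_self_nonneg _)

/-- the node form of `H795` in the letters of `H677` -/
theorem nd_nf3 (k : ℕ) (m : Pt) (A : ℤ → ℤ → ℝ) (b C : ℤ → ℤ → κ → ℝ) :
    nd k m (fun x => A x.2.2 x.2.1 * (b x.1 x.2.1 ⬝ᵥ C x.2.2 x.1)) = nf3 A b C k (rv m) := by
  unfold H795.nd H677.nf3 rv cb
  congr 1
  rw [sum_product]
  simp only [sum_product]
  show ∑ x ∈ iv k m.1, ∑ y ∈ iv k m.2.1, ∑ z ∈ iv k m.2.2, _ = _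
  have e1 : ∀ x ∈ iv k m.1, ∑ y ∈ iv k m.2.1, ∑ z ∈ iv k m.2.2,
      hs k x * hs k y * hs k z * (A z y * (b x y ⬝ᵥ C z x)) =
      ∑ z ∈ iv k m.2.2, ∑ y ∈ iv k m.2.1, hs k z * hs k x * hs k y * (A z y * (b x y ⬝ᵥ C z x)) := by
    intro x _
    rw [sum_comm]
    exact sum_congr rfl fun z _ => sum_congr rfl fun y _ => by ring
  rw [sum_congr rfl e1, sum_comm]

/-- cut to the root and shifted, order `z`, `y` -/
def cuA (N : ℕ) (M s : Pt) (A : ℤ → ℤ → ℝ) (z y : ℤ) : ℝ :=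
  if ix N (z + s.2.2) = M.2.2 ∧ ix N (y + s.2.1) = M.2.1 then A (z + s.2.2) (y + s.2.1) else 0

/-- cut to the root and shifted, order `x`, `y` -/
def cuB (N : ℕ) (M s : Pt) (b : ℤ → ℤ → κ → ℝ) (x y : ℤ) : κ → ℝ :=
  if ix N (x + s.1) = M.1 ∧ ix N (y + s.2.1) = M.2.1 then b (x + s.1) (y + s.2.1) else 0

/-- cut to the root and shifted, order `z`, `x` -/
def cuC (N : ℕ) (M s : Pt) (C : ℤ → ℤ → κ → ℝ) (z x : ℤ) : κ → ℝ :=
  if ix N (z + s.2.2) = M.2.2 ∧ ix N (x + s.1) = M.1 then C (z + s.2.2) (x + s.1) else 0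

theorem tr_cut (N : ℕ) (M s : Pt) (A : ℤ → ℤ → ℝ) (b C : ℤ → ℤ → κ → ℝ) :
    tr N M s (fun x => A x.2.2 x.2.1 * (b x.1 x.2.1 ⬝ᵥ C x.2.2 x.1)) = fun x =>
      cuA N M s A x.2.2 x.2.1 * (cuB N M s b x.1 x.2.1 ⬝ᵥ cuC N M s C x.2.2 x.1) := by
  funext x
  unfold H795.tr cuA cuB cuC
  have e : (cx N (x + s) = M) ↔ ix N (x.1 + s.1) = M.1 ∧ ix N (x.2.1 + s.2.1) = M.2.1 ∧
      ix N (x.2.2 + s.2.2) = M.2.2 := by
    unfold cx
    rw [Prod.ext_iff, Prod.ext_iff]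
    rfl
  by_cases h1 : ix N (x.1 + s.1) = M.1
  · by_cases h2 : ix N (x.2.1 + s.2.1) = M.2.1
    · by_cases h3 : ix N (x.2.2 + s.2.2) = M.2.2
      · rw [if_pos (e.2 ⟨h1, h2, h3⟩), if_pos ⟨h3, h2⟩, if_pos ⟨h1, h2⟩, if_pos ⟨h3, h1⟩]
        rfl
      · rw [if_neg fun h => h3 (e.1 h).2.2, if_neg fun h => h3 h.1, zero_mul]
    · rw [if_neg fun h => h2 (e.1 h).2.1, if_neg fun h => h2 h.2, zero_mul]
  · rw [if_neg fun h => h1 (e.1 h).1, if_neg (c := ix N (x.1 + s.1) = M.1 ∧ _) fun h => h1 h.1,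
      zero_dotProduct, mul_zero]

/-- the nodes of the scale `k` on the grid `s`, plane `j`, root `M - e` -/
def nS (N : ℕ) (M : Pt) (c : ℤ) (k : ℕ) (s : Pt) (j : ℤ) (e : Pt) : Finset Pt :=
  (cbs N (M - e) k).filter fun m => m.1 + m.2.1 + m.2.2 = ix k (ys c s) - j

/-- **The node forms on a shifted grid.** -/
theorem TS_nf3 (N : ℕ) (M : Pt) (c : ℤ) (k : ℕ) (s : Pt) (A : ℤ → ℤ → ℝ) (b C : ℤ → ℤ → κ → ℝ) :
    TS N M c k s (fun x => A x.2.2 x.2.1 * (b x.1 x.2.1 ⬝ᵥ C x.2.2 x.1)) =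
      ∑ j ∈ Icc (0 : ℤ) 2, ∑ e ∈ E8, ∑ m ∈ nS N M c k s j e,
        |nf3 (cuA N M s A) (cuB N M s b) (cuC N M s C) k (rv m)| := by
  unfold H795.TS
  rw [tr_cut]
  simp only [nd_nf3]
  rfl

/-- the gap energy of the pair on a shifted grid -/
def gpS (N : ℕ) (M : Pt) (c : ℤ) (k : ℕ) (s : Pt) (A : ℤ → ℤ → ℝ) (b : ℤ → ℤ → κ → ℝ) : ℝ :=
  ∑ j ∈ Icc (0 : ℤ) 2, ∑ e ∈ E8, ∑ m ∈ nS N M c k s j e,
    gpT (cuA N M s A) (cuB N M s b) k (rv m)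

theorem gpS_nonneg (N : ℕ) (M : Pt) (c : ℤ) (k : ℕ) (s : Pt) (A : ℤ → ℤ → ℝ)
    (b : ℤ → ℤ → κ → ℝ) : 0 ≤ gpS N M c k s A b :=
  sum_nonneg fun _ _ => sum_nonneg fun _ _ => sum_nonneg fun _ _ => gpT_nonneg _ _ _ _

/-- the energy of the third function on a shifted grid -/
def nCS (N : ℕ) (M : Pt) (c : ℤ) (k : ℕ) (s : Pt) (C : ℤ → ℤ → κ → ℝ) : ℝ :=
  ∑ j ∈ Icc (0 : ℤ) 2, ∑ e ∈ E8, ∑ m ∈ nS N M c k s j e, nC k (cuC N M s C) (rv m)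

theorem nCS_nonneg (N : ℕ) (M : Pt) (c : ℤ) (k : ℕ) (s : Pt) (C : ℤ → ℤ → κ → ℝ) :
    0 ≤ nCS N M c k s C :=
  sum_nonneg fun _ _ => sum_nonneg fun _ _ => sum_nonneg fun _ _ => nC_nonneg _ _ _

theorem TS_cs (N : ℕ) (M : Pt) (c : ℤ) {k : ℕ} (hk : 1 ≤ k) (s : Pt) (A : ℤ → ℤ → ℝ)
    (b C : ℤ → ℤ → κ → ℝ) :
    TS N M c k s (fun x => A x.2.2 x.2.1 * (b x.1 x.2.1 ⬝ᵥ C x.2.2 x.1)) ≤
      √(nCS N M c k s C) * √(gpS N M c k s A b) := by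
  rw [TS_nf3]
  unfold nCS gpS
  refine cs_step _ (fun _ => sum_nonneg fun _ _ => sum_nonneg fun _ _ => nC_nonneg _ _ _)
    (fun _ => sum_nonneg fun _ _ => sum_nonneg fun _ _ => gpT_nonneg _ _ _ _) fun j _ => ?_
  refine cs_step _ (fun _ => sum_nonneg fun _ _ => nC_nonneg _ _ _)
    (fun _ => sum_nonneg fun _ _ => gpT_nonneg _ _ _ _) fun e _ => ?_
  exact cs_step _ (fun _ => nC_nonneg _ _ _) (fun _ => gpT_nonneg _ _ _ _) fun m _ =>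
    nf3_cs hk _ _ _ _

end node

/-! ### The energy of the third function -/

/-- **Translation of the root, one variable.** -/
theorem tr_one (N : ℕ) (M s : ℤ) (hs0 : ix N s = 0) (h : ℤ → ℝ) :
    ∑ e ∈ Icc (0 : ℤ) 1, ∑ x ∈ iv N (M - e), (if ix N (x + s) = M then h (x + s) else 0) =
      ∑ x ∈ iv N M, h x := by
  have one : ∀ x ∈ iv N M, ∑ e ∈ Icc (0 : ℤ) 1, (if ix N (x - s) = M - e then h x else 0) =
      h x := by
    intro x hx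
    rw [mem_iv] at hx
    have hmem : M - ix N (x - s) ∈ Icc (0 : ℤ) 1 := by
      rw [mem_Icc]
      have r1 := H795.ix_shift hs0 hx
      omega
    rw [sum_eq_single_of_mem _ hmem]
    · rw [if_pos]
      rw [sub_sub_cancel]
    · intro e _ he
      rw [if_neg]
      intro h
      apply he
      rw [h, sub_sub_cancel]
  rw [← sum_congr rfl one, sum_comm]
  refine sum_congr rfl fun e _ => ?_
  rw [← sum_filter, ← sum_filter]
  refine sum_nbij' (fun x => x + s) (fun x => x - s) ?_ ?_ ?_ ?_ ?_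
  · intro x hx
    rw [mem_filter, mem_iv] at hx ⊢
    refine ⟨hx.2, ?_⟩
    rw [add_sub_cancel_right]
    exact hx.1
  · intro x hx
    rw [mem_filter, mem_iv] at hx ⊢
    refine ⟨hx.2, ?_⟩
    rw [sub_add_cancel]
    exact hx.1
  · intro x _
    exact add_sub_cancel_right x s
  · intro x _
    exact sub_add_cancel x s
  · intro x _
    rfl

/-- a plane of nodes over the eight roots: the third index is determined -/
theorem plane_le {N k : ℕ} (M : Pt) (P : ℤ) {f : ℤ → ℤ → ℝ} (hf : ∀ a b, 0 ≤ f a b) :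
    ∑ e ∈ E8, ∑ m ∈ (cbs N (M - e) k).filter fun m => m.1 + m.2.1 + m.2.2 = P, f m.2.2 m.1 ≤
      ∑ e3 ∈ Icc (0 : ℤ) 1, ∑ m3 ∈ iv (N - k) (M.2.2 - e3), ∑ e1 ∈ Icc (0 : ℤ) 1,
        ∑ m1 ∈ iv (N - k) (M.1 - e1), f m3 m1 := by
  have e1 : ∀ e ∈ E8, ∑ m ∈ (cbs N (M - e) k).filter (fun m => m.1 + m.2.1 + m.2.2 = P),
      f m.2.2 m.1 = ∑ m3 ∈ iv (N - k) (M.2.2 - e.2.2), ∑ m1 ∈ iv (N - k) (M.1 - e.1),
        ∑ m2 ∈ iv (N - k) (M.2.1 - e.2.1), if m1 + m2 + m3 = P then f m3 m1 else 0 := by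
    intro e _
    rw [sum_filter]
    unfold cbs
    rw [sum_product]
    simp only [sum_product]
    show ∑ m1 ∈ iv (N - k) (M.1 - e.1), ∑ m2 ∈ iv (N - k) (M.2.1 - e.2.1),
      ∑ m3 ∈ iv (N - k) (M.2.2 - e.2.2), (if m1 + m2 + m3 = P then f m3 m1 else 0) = _
    rw [sum_congr rfl fun m1 (_ : m1 ∈ iv (N - k) (M.1 - e.1)) => sum_comm, sum_comm]
  rw [sum_congr rfl e1]
  unfold H795.E8
  rw [sum_product]
  simp only [sum_product]
  show ∑ a ∈ Icc (0 : ℤ) 1, ∑ b ∈ Icc (0 : ℤ) 1, ∑ c ∈ Icc (0 : ℤ) 1,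
    ∑ m3 ∈ iv (N - k) (M.2.2 - c), ∑ m1 ∈ iv (N - k) (M.1 - a),
      ∑ m2 ∈ iv (N - k) (M.2.1 - b), (if m1 + m2 + m3 = P then f m3 m1 else 0) ≤ _
  -- the second index
  have e2 : ∀ a c : ℤ, ∑ b ∈ Icc (0 : ℤ) 1, ∑ m3 ∈ iv (N - k) (M.2.2 - c),
      ∑ m1 ∈ iv (N - k) (M.1 - a), ∑ m2 ∈ iv (N - k) (M.2.1 - b),
        (if m1 + m2 + m3 = P then f m3 m1 else 0) ≤
      ∑ m3 ∈ iv (N - k) (M.2.2 - c), ∑ m1 ∈ iv (N - k) (M.1 - a), f m3 m1 := by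
    intro a c
    rw [sum_comm]
    refine sum_le_sum fun m3 _ => ?_
    rw [sum_comm]
    refine sum_le_sum fun m1 _ => ?_
    have e3 : ∀ b : ℤ, ∑ m2 ∈ iv (N - k) (M.2.1 - b),
        (if m1 + m2 + m3 = P then f m3 m1 else 0) =
        if ix (N - k) (P - m1 - m3) = M.2.1 - b then f m3 m1 else 0 := by
      intro b
      have e4 : ∀ m2 : ℤ, (m1 + m2 + m3 = P) ↔ P - m1 - m3 = m2 := by
        intro m2
        omega
      simp only [e4]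
      rw [sum_ite_eq]
      simp only [mem_iv]
    simp only [e3]
    rw [show (Icc (0 : ℤ) 1) = {0, 1} by decide, sum_insert (by decide), sum_singleton]
    have hp := hf m3 m1
    split_ifs with h1 h2
    · omega
    · linarith
    · linarith
    · linarith
  calc ∑ a ∈ Icc (0 : ℤ) 1, ∑ b ∈ Icc (0 : ℤ) 1, ∑ c ∈ Icc (0 : ℤ) 1,
      ∑ m3 ∈ iv (N - k) (M.2.2 - c), ∑ m1 ∈ iv (N - k) (M.1 - a),
        ∑ m2 ∈ iv (N - k) (M.2.1 - b), (if m1 + m2 + m3 = P then f m3 m1 else 0)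
      = ∑ a ∈ Icc (0 : ℤ) 1, ∑ c ∈ Icc (0 : ℤ) 1, ∑ b ∈ Icc (0 : ℤ) 1,
      ∑ m3 ∈ iv (N - k) (M.2.2 - c), ∑ m1 ∈ iv (N - k) (M.1 - a),
        ∑ m2 ∈ iv (N - k) (M.2.1 - b), (if m1 + m2 + m3 = P then f m3 m1 else 0) :=
        sum_congr rfl fun a _ => sum_comm
    _ ≤ ∑ a ∈ Icc (0 : ℤ) 1, ∑ c ∈ Icc (0 : ℤ) 1, ∑ m3 ∈ iv (N - k) (M.2.2 - c),
        ∑ m1 ∈ iv (N - k) (M.1 - a), f m3 m1 :=
        sum_le_sum fun a _ => sum_le_sum fun c _ => e2 a c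
    _ = _ := by
        rw [sum_comm]
        refine sum_congr rfl fun c _ => ?_
        rw [sum_comm]

section cut

variable {κ : Type*} [Fintype κ]

/-- **The energy over the three planes.** -/
theorem nCS_le {N k : ℕ} (hk : k ≤ N) (M : Pt) (c : ℤ) {s : Pt} (hs0 : s ∈ cb N 0)
    (C : ℤ → ℤ → κ → ℝ) :
    nCS N M c k s C ≤ 3 * ∑ z ∈ iv N M.2.2, ∑ x ∈ iv N M.1, C z x ⬝ᵥ C z x := by
  rw [mem_cb] at hs0
  have q1 : ix N s.1 = 0 := congrArg Prod.fst hs0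
  have q3 : ix N s.2.2 = 0 := congrArg (fun z : Pt => z.2.2) hs0
  have one : ∀ j : ℤ, ∑ e ∈ E8, ∑ m ∈ nS N M c k s j e, nC k (cuC N M s C) (rv m) ≤
      ∑ z ∈ iv N M.2.2, ∑ x ∈ iv N M.1, C z x ⬝ᵥ C z x := by
    intro j
    have h1 := plane_le (N := N) (k := k) M (ix k (ys c s) - j)
      (f := fun m3 m1 => ∑ z ∈ iv k m3, ∑ x ∈ iv k m1, cuC N M s C z x ⬝ᵥ cuC N M s C z x)
      fun _ _ => sum_nonneg fun _ _ => sum_nonneg fun _ _ => H922.dot_self_nonneg _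
    refine h1.trans (le_of_eq ?_)
    have a1 : ∀ (e3 : ℤ) (e1 : ℤ), ∑ m3 ∈ iv (N - k) (M.2.2 - e3),
        ∑ m1 ∈ iv (N - k) (M.1 - e1), ∑ z ∈ iv k m3, ∑ x ∈ iv k m1,
          cuC N M s C z x ⬝ᵥ cuC N M s C z x =
        ∑ z ∈ iv N (M.2.2 - e3), ∑ x ∈ iv N (M.1 - e1),
          cuC N M s C z x ⬝ᵥ cuC N M s C z x := by
      intro e3 e1
      rw [← PL.H978.sum_iv_iv hk (M.2.2 - e3) fun z => ∑ x ∈ iv N (M.1 - e1),
        cuC N M s C z x ⬝ᵥ cuC N M s C z x]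
      refine sum_congr rfl fun m3 _ => ?_
      rw [sum_comm]
      refine sum_congr rfl fun z _ => ?_
      rw [← PL.H978.sum_iv_iv hk (M.1 - e1) fun x => cuC N M s C z x ⬝ᵥ cuC N M s C z x]
    have a2 : ∀ z x : ℤ, cuC N M s C z x ⬝ᵥ cuC N M s C z x =
        if ix N (z + s.2.2) = M.2.2 then (if ix N (x + s.1) = M.1 then
          C (z + s.2.2) (x + s.1) ⬝ᵥ C (z + s.2.2) (x + s.1) else 0) else 0 := by
      intro z x
      unfold cuC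
      by_cases h1 : ix N (z + s.2.2) = M.2.2
      · by_cases h2 : ix N (x + s.1) = M.1
        · rw [if_pos ⟨h1, h2⟩, if_pos h1, if_pos h2]
        · rw [if_neg fun h => h2 h.2, if_pos h1, if_neg h2, zero_dotProduct]
      · rw [if_neg fun h => h1 h.1, if_neg h1, zero_dotProduct]
    calc ∑ e3 ∈ Icc (0 : ℤ) 1, ∑ m3 ∈ iv (N - k) (M.2.2 - e3), ∑ e1 ∈ Icc (0 : ℤ) 1,
        ∑ m1 ∈ iv (N - k) (M.1 - e1), ∑ z ∈ iv k m3, ∑ x ∈ iv k m1,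
          cuC N M s C z x ⬝ᵥ cuC N M s C z x
        = ∑ e3 ∈ Icc (0 : ℤ) 1, ∑ e1 ∈ Icc (0 : ℤ) 1, ∑ z ∈ iv N (M.2.2 - e3),
          ∑ x ∈ iv N (M.1 - e1), cuC N M s C z x ⬝ᵥ cuC N M s C z x := by
          refine sum_congr rfl fun e3 _ => ?_
          rw [sum_comm]
          exact sum_congr rfl fun e1 _ => a1 e3 e1
      _ = ∑ e3 ∈ Icc (0 : ℤ) 1, ∑ z ∈ iv N (M.2.2 - e3),
          (if ix N (z + s.2.2) = M.2.2 then ∑ x ∈ iv N M.1,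
            C (z + s.2.2) x ⬝ᵥ C (z + s.2.2) x else 0) := by
          refine sum_congr rfl fun e3 _ => ?_
          rw [sum_comm]
          refine sum_congr rfl fun z _ => ?_
          simp only [a2]
          by_cases h1 : ix N (z + s.2.2) = M.2.2
          · simp only [if_pos h1]
            exact tr_one N M.1 s.1 q1 fun x => C (z + s.2.2) x ⬝ᵥ C (z + s.2.2) x
          · simp only [if_neg h1, sum_const_zero]
      _ = _ := tr_one N M.2.2 s.2.2 q3 fun z => ∑ x ∈ iv N M.1, C z x ⬝ᵥ C z x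
  unfold nCS
  refine (sum_le_sum fun j _ => one j).trans (le_of_eq ?_)
  rw [sum_const]
  have hc : (Icc (0 : ℤ) 2).card = 3 := by decide
  rw [hc, nsmul_eq_mul]
  norm_num

end cut

/-! ### The shift error -/

variable {ι : Type} [Fintype ι] [DecidableEq ι]

/-- the slot difference on the third function -/
def dW (Al : ℕ → Pt → Prop) (o : ℤ) (K : ℕ) (M : Pt) (sg : ℕ → Pt → ℝ) (l : ℝ)
    (u : ℤ → ℤ → ι → ℝ) (C : FamV ι) (h x0 : ℤ) (k : ℕ) (z x : ℤ) : ι → ℝ :=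
  (sl Al o K M sg l u x0 k z x - sl' Al o K M sg l u h x0 (k + 1) z x) *ᵥ C x0 (k + 1) z x

/-- energy of the slot difference -/
def eW (Al : ℕ → Pt → Prop) (o : ℤ) (K : ℕ) (M : Pt) (sg : ℕ → Pt → ℝ) (l : ℝ)
    (u : ℤ → ℤ → ι → ℝ) (C : FamV ι) (h : ℤ) : ℝ :=
  ∑ t ∈ rt M, ∑ x0 ∈ iv K t, ∑ k ∈ range K, ∑ z ∈ iv K M.2.2, ∑ x ∈ iv K M.1,
    dW Al o K M sg l u C h x0 k z x ⬝ᵥ dW Al o K M sg l u C h x0 k z x

/-- gap energy of the pair on the grid `s` -/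
def eP (K : ℕ) (M : Pt) (A : FamA) (b : FamV ι) (s : Pt) : ℝ :=
  ∑ t ∈ rt M, ∑ x0 ∈ iv K t, ∑ k ∈ range K,
    gpS K M (-x0) (k + 1) s (A x0 (k + 1)) (b x0 (k + 1))

omit [DecidableEq ι] in
theorem eP_nonneg (K : ℕ) (M : Pt) (A : FamA) (b : FamV ι) (s : Pt) : 0 ≤ eP K M A b s :=
  sum_nonneg fun _ _ => sum_nonneg fun _ _ => sum_nonneg fun _ _ => gpS_nonneg _ _ _ _ _ _ _

theorem eW_nonneg (Al : ℕ → Pt → Prop) (o : ℤ) (K : ℕ) (M : Pt) (sg : ℕ → Pt → ℝ) (l : ℝ)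
    (u : ℤ → ℤ → ι → ℝ) (C : FamV ι) (h : ℤ) : 0 ≤ eW Al o K M sg l u C h :=
  sum_nonneg fun _ _ => sum_nonneg fun _ _ => sum_nonneg fun _ _ => sum_nonneg fun _ _ =>
    sum_nonneg fun _ _ => H922.dot_self_nonneg _

/-- **One grid.** -/
theorem PS_grid (Al : ℕ → Pt → Prop) (o : ℤ) (K : ℕ) (M : Pt) (sg : ℕ → Pt → ℝ) (l : ℝ)
    (u : ℤ → ℤ → ι → ℝ) (A : FamA) (b C : FamV ι) {s : Pt} (hs0 : s ∈ cb K 0) :
    ∑ t ∈ rt M, ∑ x0 ∈ iv K t, ∑ k ∈ range K,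
      TS K M (-x0) (k + 1) s (fun y => GS Al o K M sg l u A b C x0 k (k + 1) y -
        GR Al o K M sg l u A b C s.2.2 x0 (k + 1) y) ≤
      √(3 * eW Al o K M sg l u C s.2.2) * √(eP K M A b s) := by
  have e3 : 3 * eW Al o K M sg l u C s.2.2 = ∑ t ∈ rt M, ∑ x0 ∈ iv K t, ∑ k ∈ range K,
      3 * ∑ z ∈ iv K M.2.2, ∑ x ∈ iv K M.1,
        dW Al o K M sg l u C s.2.2 x0 k z x ⬝ᵥ dW Al o K M sg l u C s.2.2 x0 k z x := by
    unfold eW
    simp only [← mul_sum]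
  rw [e3]
  unfold eP
  have hn : ∀ (x0 : ℤ) (k : ℕ), 0 ≤ 3 * ∑ z ∈ iv K M.2.2, ∑ x ∈ iv K M.1,
      dW Al o K M sg l u C s.2.2 x0 k z x ⬝ᵥ dW Al o K M sg l u C s.2.2 x0 k z x := fun _ _ =>
    mul_nonneg (by norm_num) (sum_nonneg fun _ _ => sum_nonneg fun _ _ =>
      H922.dot_self_nonneg _)
  refine cs_step _ (fun _ => sum_nonneg fun _ _ => sum_nonneg fun _ _ => hn _ _)
    (fun _ => sum_nonneg fun _ _ => sum_nonneg fun _ _ => gpS_nonneg _ _ _ _ _ _ _)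
    fun t _ => ?_
  refine cs_step _ (fun _ => sum_nonneg fun _ _ => hn _ _)
    (fun _ => sum_nonneg fun _ _ => gpS_nonneg _ _ _ _ _ _ _) fun x0 _ => ?_
  refine cs_step _ (fun _ => hn _ _) (fun _ => gpS_nonneg _ _ _ _ _ _ _) fun k hk => ?_
  have e : (fun y => GS Al o K M sg l u A b C x0 k (k + 1) y -
      GR Al o K M sg l u A b C s.2.2 x0 (k + 1) y) = fun y : Pt =>
      A x0 (k + 1) y.2.2 y.2.1 * (b x0 (k + 1) y.1 y.2.1 ⬝ᵥ
        dW Al o K M sg l u C s.2.2 x0 k y.2.2 y.1) := by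
    funext y
    unfold GS GR GA dW
    rw [sub_mulVec, dotProduct_sub]
    ring
  rw [e]
  refine (TS_cs K M (-x0) (by omega) s (A x0 (k + 1)) (b x0 (k + 1))
    (dW Al o K M sg l u C s.2.2 x0 k)).trans ?_
  refine mul_le_mul_of_nonneg_right (Real.sqrt_le_sqrt ?_) (Real.sqrt_nonneg _)
  exact nCS_le (by rw [mem_range] at hk; omega) M (-x0) hs0 _

/-- **The shift error.** -/
theorem PS_le (Al : ℕ → Pt → Prop) (o : ℤ) (K : ℕ) (M : Pt) (sg : ℕ → Pt → ℝ) (l : ℝ)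
    (u : ℤ → ℤ → ι → ℝ) (A : FamA) (b C : FamV ι) {W P : ℝ}
    (hW : ∀ s ∈ cb K 0, eW Al o K M sg l u C s.2.2 ≤ W) (hP : ∀ s ∈ cb K 0, eP K M A b s ≤ P) :
    PS ι Al o K M sg l u A b C ≤ √(3 * W) * √P := by
  unfold PS
  have h1 : ∀ s ∈ cb K 0, ∑ t ∈ rt M, ∑ x0 ∈ iv K t, ∑ k ∈ range K,
      TS K M (-x0) (k + 1) s (fun y => GS Al o K M sg l u A b C x0 k (k + 1) y -
        GR Al o K M sg l u A b C s.2.2 x0 (k + 1) y) ≤ √(3 * W) * √P := fun s hs =>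
    (PS_grid Al o K M sg l u A b C hs).trans (mul_le_mul
      (Real.sqrt_le_sqrt (mul_le_mul_of_nonneg_left (hW s hs) (by norm_num)))
      (Real.sqrt_le_sqrt (hP s hs)) (Real.sqrt_nonneg _) (Real.sqrt_nonneg _))
  have h2 := mul_le_mul_of_nonneg_left (sum_le_sum h1)
    (by positivity : (0 : ℝ) ≤ ((8 : ℝ) ^ K)⁻¹)
  refine h2.trans (le_of_eq ?_)
  rw [sum_const, nsmul_eq_mul]
  have hc : ((cb K 0).card : ℝ) = 8 ^ K := by
    unfold cb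
    rw [card_product, card_product, PL.card_iv, PL.card_iv, PL.card_iv]
    push_cast
    rw [← mul_pow, ← mul_pow]
    norm_num
  rw [hc]
  have h8 : (8 : ℝ) ^ K ≠ 0 := by positivity
  field_simp

end

end Vale.Agent.P141.H58
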