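import Vale.Agent.P141.H58.EWn
import Vale.Agent.P141.H470.LeafS0

/-!
# P141, line (A), flow part: the leaf of the shift error
-/

namespace Vale.Agent.P141.H58

open Vale.Agent.P141.H677.Sk
open Vale.Agent.P141.H470.FS (EWn leafS_of_EWn)

noncomputable section

/-- **The number of the slot difference.** -/
theorem eWn : EWn 147 384 := by
  intro ι _ _ q n ez F1 F2 F3 o K x s r U g u v A b C Q1 Q2 Q3 v' sg hD hcls ho hKn ht _ _ hL hs
    hr hez hsg Ln h
  exact eW_FDs hD hcls ho hKn ht hL hs hr hez hsg Ln h

/-- **The leaf of the shift error.** -/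
theorem leafS : LeafS := leafS_of_EWn (by norm_num) (by norm_num) eWn

end

end Vale.Agent.P141.H58
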