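import Vale.Agent.P141.H58.PSh
import Vale.Agent.P141.H876.ShiftA

/-!
# P141, line (A), flow part: the shift error in real letters

* `MxR`, `sR` : the label matrices (on the root only) and the signs of the nodes of
  `H677.Sk.sl` in the letters of `H841.Lay`; `RT_Rm`, `sl'_Rs` : the slots of the skeleton are
  `Rm`, `Rs`;
* `hXR` : the energies of all the layers;
* `dev_pt` : the deviation at one point, all scales, far layers kept;
* `dR_pt` : the error `Rm k - Rs (k + 1)` at one point;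
* `eW_le` : the energy of the slot difference.
-/

namespace Vale.Agent.P141.H58

open Finset Matrix
open Vale.Agent.P141.PL (Pt iv hs ix mem_iv ix_ix cb mem_cb cx)
open Vale.Agent.P141.PL.H560 (cbs bx0)
open Vale.Agent.P141.H677 (GA RT MT KT GT tr_T MT_mulVec nd3 thN sN cP cP_ix mem_sN rt rv)
open Vale.Agent.P141.H677.Sk
open Vale.Agent.P141.H922 (ck)
open Vale.Agent.P141.H43 (avv nsq nsq_nonneg)
open Vale.Agent.P141.H841 (Lm Rm Rs Nn Nn_nonneg om om_nonneg Lm_le nsq_add_le nsq_sub_le)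
open Vale.Agent.P141.H876 (En En_nonneg wn dev_sum wt_Nn wt_cell)

noncomputable section

open scoped Classical

variable {ι : Type} [Fintype ι] [DecidableEq ι]

/-! ### The letters -/

/-- the label matrices on the root -/
def MxR (l : ℝ) (K : ℕ) (M : Pt) (u : ℤ → ℤ → ι → ℝ) (x : ℤ) (i : ℕ) (m : ℤ) : Matrix ι ι ℝ :=
  if ix (K - i) m = M.2.1 then MT l (KT l u x) i m else 0

/-- the node with the cells `a` of `x₀` and `b` of `z` over the point `x` -/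
def ndR (o x : ℤ) (i : ℕ) (a b : ℤ) : Pt := (b, o - 2 - a - ix i x - b, ix i x)

/-- the sign of a node, times the Haar sign of `x` -/
def sR (Al : ℕ → Pt → Prop) (o : ℤ) (K : ℕ) (M : Pt) (sg : ℕ → Pt → ℝ) (x : ℤ) (i : ℕ)
    (a b : ℤ) : ℝ :=
  (if ndR o x i a b ∈ sN Al o K M (2 ^ i * a) i then sg i (rv (ndR o x i a b)) else 0) * hs i x

theorem sR_le {Al : ℕ → Pt → Prop} {o : ℤ} {K : ℕ} {M : Pt} {sg : ℕ → Pt → ℝ}
    (hsg : ∀ i m, |sg i m| ≤ 1) (x : ℤ) (i : ℕ) (a b : ℤ) : |sR Al o K M sg x i a b| ≤ 1 := by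
  unfold sR
  rw [abs_mul, PL.abs_hs, mul_one]
  split_ifs
  · exact hsg _ _
  · rw [abs_zero]; exact zero_le_one

theorem ix_mul (i : ℕ) (a : ℤ) : ix i (2 ^ i * a) = a := by
  unfold PL.ix
  exact Int.mul_ediv_cancel_left a (by positivity)

theorem sN_ix (Al : ℕ → Pt → Prop) (o : ℤ) (K : ℕ) (M : Pt) (x0 : ℤ) (i : ℕ) :
    sN Al o K M (2 ^ i * ix i x0) i = sN Al o K M x0 i := by
  unfold H677.sN
  rw [cP_ix o (ix_mul i (ix i x0))]

theorem ndR_nd3 (o x0 z x : ℤ) (i : ℕ) : ndR o x i (ix i x0) (ix i z) = nd3 o x0 z x i := by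
  unfold ndR H677.nd3 H677.cP
  rfl

theorem Lm_thN (Al : ℕ → Pt → Prop) (o : ℤ) (K : ℕ) (M : Pt) (sg : ℕ → Pt → ℝ) (l : ℝ)
    (u : ℤ → ℤ → ι → ℝ) (x x0 z : ℤ) (i : ℕ) :
    Lm (MxR l K M u x) o x (sR Al o K M sg x) i x0 z =
      thN Al o K M sg x0 z x i • MT l (KT l u x) i (nd3 o x0 z x i).2.1 := by
  unfold H841.Lm sR H677.thN
  rw [sN_ix, ndR_nd3]
  by_cases h : nd3 o x0 z x i ∈ sN Al o K M x0 i
  · rw [if_pos h, if_pos h]
    have h1 := mem_sN.1 h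
    have h2 : ix (K - i) (nd3 o x0 z x i).2.1 = M.2.1 := by
      have h3 := h1.1
      unfold PL.H560.cbs at h3
      rw [mem_product, mem_product, mem_iv, mem_iv, mem_iv] at h3
      exact h3.2.1
    have e1 : ck o x z i - ix i x0 = (nd3 o x0 z x i).2.1 := by
      unfold H922.ck H677.nd3 H677.cP
      show o - 2 - ix i x - ix i z - ix i x0 = o - 2 - ix i x0 - ix i x - ix i z
      ring
    have e2 : MxR l K M u x i (ck o x z i - ix i x0) =
        MT l (KT l u x) i (nd3 o x0 z x i).2.1 := by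
      unfold MxR
      rw [e1, if_pos h2]
    rw [e2]
    congr 1
    ring
  · rw [if_neg h, if_neg h, zero_mul, zero_mul, zero_smul, zero_smul]

theorem RT_Rm (Al : ℕ → Pt → Prop) (o : ℤ) (K : ℕ) (M : Pt) (sg : ℕ → Pt → ℝ) (l : ℝ)
    (u : ℤ → ℤ → ι → ℝ) (j : ℕ) (x0 z x : ℤ) :
    RT Al o K M sg l u j x0 z x = Rm (MxR l K M u x) o x (sR Al o K M sg x) K j x0 z := by
  unfold H677.RT H841.Rm
  exact sum_congr rfl fun i _ => (Lm_thN Al o K M sg l u x x0 z (i + 1)).symm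

theorem sl_Rm (Al : ℕ → Pt → Prop) (o : ℤ) (K : ℕ) (M : Pt) (sg : ℕ → Pt → ℝ) (l : ℝ)
    (u : ℤ → ℤ → ι → ℝ) (x0 : ℤ) (j : ℕ) (z x : ℤ) :
    sl Al o K M sg l u x0 j z x = Rm (MxR l K M u x) o x (sR Al o K M sg x) K j x0 z := by
  unfold H677.Sk.sl
  exact RT_Rm Al o K M sg l u j x0 z x

theorem sl'_Rs (Al : ℕ → Pt → Prop) (o : ℤ) (K : ℕ) (M : Pt) (sg : ℕ → Pt → ℝ) (l : ℝ)
    (u : ℤ → ℤ → ι → ℝ) (h x0 : ℤ) (k : ℕ) (z x : ℤ) :
    sl' Al o K M sg l u h x0 k z x =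
      Rs (MxR l K M u x) o x (sR Al o K M sg x) K h k x0 (ix k (z - h)) := by
  unfold H677.Sk.sl' H841.Rs H43.avv
  congr 1
  exact sum_congr rfl fun w _ => RT_Rm Al o K M sg l u 0 x0 (w + h) x

/-- the energy of the layers at the top of the root -/
def QR (l : ℝ) (K : ℕ) (M : Pt) (u : ℤ → ℤ → ι → ℝ) (x : ℤ) (a : ι → ℝ) : ℝ :=
  (2 * l)⁻¹ * (a ⬝ᵥ GT u x K M.2.1 *ᵥ a)

omit [DecidableEq ι] in
theorem QR_nonneg {l : ℝ} (hl : 0 < l) (K : ℕ) (M : Pt) (u : ℤ → ℤ → ι → ℝ) (x : ℤ)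
    (a : ι → ℝ) : 0 ≤ QR l K M u x a := by
  unfold QR
  refine mul_nonneg (by positivity) ?_
  rw [H677.GT_form]
  exact mul_nonneg (by positivity) (sum_nonneg fun _ _ => sq_nonneg _)

/-- one scale of the layers -/
theorem En_MxR (l : ℝ) (K : ℕ) (M : Pt) (u : ℤ → ℤ → ι → ℝ) (x T M3 : ℤ) (i : ℕ)
    (a : ι → ℝ) : En (MxR l K M u x) K T x M3 i a ≤
      2 ^ i * ∑ m ∈ iv (K - i) M.2.1, H483.xiT l (KT l u x) a i m ⬝ᵥ
        H483.xiT l (KT l u x) a i m := by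
  unfold H876.En
  refine mul_le_mul_of_nonneg_left ?_ (by positivity)
  have e1 : ∀ R ∈ wn K T x M3, ∑ m ∈ iv (K - i) R, nsq (MxR l K M u x i m *ᵥ a) =
      if R = M.2.1 then ∑ m ∈ iv (K - i) M.2.1, H483.xiT l (KT l u x) a i m ⬝ᵥ
        H483.xiT l (KT l u x) a i m else 0 := by
    intro R _
    by_cases hR : R = M.2.1
    · rw [if_pos hR, hR]
      refine sum_congr rfl fun m hm => ?_
      rw [mem_iv] at hm
      unfold MxR
      rw [if_pos hm, MT_mulVec]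
      rfl
    · rw [if_neg hR]
      refine sum_eq_zero fun m hm => ?_
      rw [mem_iv] at hm
      unfold MxR
      rw [if_neg (by rw [hm]; exact hR), zero_mulVec]
      exact H841.nsq_zero
  rw [sum_congr rfl e1, sum_ite_eq']
  split_ifs
  · exact le_rfl
  · exact sum_nonneg fun _ _ => H922.dot_self_nonneg _

/-- **The energies of all the layers.** -/
theorem hXR {l : ℝ} (hl : 0 < l) (K : ℕ) (M : Pt) (u : ℤ → ℤ → ι → ℝ) (x T M3 : ℤ)
    (a : ι → ℝ) : ∑ i ∈ range K, En (MxR l K M u x) K T x M3 (i + 1) a ≤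
      2 ^ K * QR l K M u x a := by
  have h1 := H922.xi_tree' (tr_T hl K u x) a le_rfl M.2.1
  have h2 := H922.tsum_iv (fun j i => H483.xiT l (KT l u x) a j i ⬝ᵥ
    H483.xiT l (KT l u x) a j i) K M.2.1
  have h3 := mul_le_mul_of_nonneg_left h1 (by positivity : (0 : ℝ) ≤ 2 ^ K)
  rw [h2] at h3
  unfold QR
  refine le_trans ?_ h3
  have e1 : ∑ i ∈ range K, En (MxR l K M u x) K T x M3 (i + 1) a =
      ∑ i ∈ Icc 1 K, En (MxR l K M u x) K T x M3 i a := by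
    rw [range_eq_Ico, sum_Ico_add' (fun i => En (MxR l K M u x) K T x M3 i a) 0 K 1]
    rfl
  rw [e1]
  exact sum_le_sum fun i _ => En_MxR l K M u x T M3 i a

/-! ### One point -/

section point

variable {Mx : ℕ → ℤ → Matrix ι ι ℝ} {o x1 T M3 : ℤ} {n : ℕ} {s : ℕ → ℤ → ℤ → ℝ}

/-- the far layers at the point `y` -/
def farE (Mx : ℕ → ℤ → Matrix ι ι ℝ) (n : ℕ) (T x1 M3 : ℤ) (L : ℕ) (sh y : ℤ) (w : ι → ℝ) : ℝ :=
  ∑ k ∈ range (n + 1), ∑ i ∈ range n,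
    (if k + L ≤ i then om sh k i y * En Mx n T x1 M3 (i + 1) w else 0)

omit [DecidableEq ι] in
theorem farE_nonneg (L : ℕ) (sh y : ℤ) (w : ι → ℝ) : 0 ≤ farE Mx n T x1 M3 L sh y w := by
  refine sum_nonneg fun k _ => sum_nonneg fun i _ => ?_
  split_ifs
  · exact mul_nonneg (om_nonneg _ _ _ _) (En_nonneg _ _)
  · exact le_rfl

omit [DecidableEq ι] in
/-- **The deviation at one point, all scales.** -/
theorem dev_pt (hs1 : ∀ k a b, |s k a b| ≤ 1) (ho : o = 1 ∨ o = -1) {w : ι → ℝ} {q : ℝ}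
    (hX : ∑ i ∈ range n, En Mx n T x1 M3 (i + 1) w ≤ q)
    {W : ℕ → ℤ → ℝ} {e : ℝ} (he : 0 ≤ e) (hW0 : ∀ k x0, 0 ≤ W k x0)
    (hW : ∀ k ≤ n, ∀ j, ∑ x0 ∈ iv k j, W k x0 ≤ e * 2 ^ k) (L : ℕ) (sh : ℤ) {y : ℤ}
    (hy : y ∈ iv n M3) :
    ∑ k ∈ range (n + 1), ∑ x0 ∈ iv n T, W k x0 *
        nsq ((Rs Mx o x1 s n sh k x0 (ix k (y - sh)) - Rm Mx o x1 s n k x0 y) *ᵥ w) ≤
      2 * e * ((24 + 8 * (L : ℝ) ^ 3) * q + farE Mx n T x1 M3 L sh y w) := by
  have e1 : ∀ k ∈ range (n + 1), ∑ x0 ∈ iv n T, W k x0 *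
      nsq ((Rs Mx o x1 s n sh k x0 (ix k (y - sh)) - Rm Mx o x1 s n k x0 y) *ᵥ w) ≤
      2 * e * (∑ i ∈ range n, (if i + 1 ≤ k + L then
          om sh k i y * 2 ^ (k - (i + 1)) * En Mx n T x1 M3 (i + 1) w else 0) +
        ∑ i ∈ range n, (if k + L ≤ i then om sh k i y * En Mx n T x1 M3 (i + 1) w else 0)) := by
    intro k hk
    rw [mem_range] at hk
    refine (dev_sum hs1 ho (by omega) (fun x => hW0 k x) (fun j => hW k (by omega) j) sh hy
      w).trans ?_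
    refine mul_le_mul_of_nonneg_left ?_ (by positivity)
    rw [← sum_add_distrib]
    refine sum_le_sum fun i _ => ?_
    by_cases h : i + 1 ≤ k + L
    · rw [if_pos h, if_neg (by omega), add_zero]
    · rw [if_neg h, if_pos (by omega), zero_add]
      have e2 : k - (i + 1) = 0 := by omega
      rw [e2, pow_zero, mul_one]
  refine (sum_le_sum e1).trans ?_
  rw [← mul_sum, sum_add_distrib]
  refine mul_le_mul_of_nonneg_left (add_le_add ?_ le_rfl) (by positivity)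
  refine (H210.near_E n L sh y (E := fun i => En Mx n T x1 M3 (i + 1) w)
    fun i => En_nonneg _ _).trans ?_
  exact mul_le_mul_of_nonneg_left hX (by positivity)

omit [DecidableEq ι] in
/-- **The error of the slot at one point, all scales.** -/
theorem dR_pt (hs1 : ∀ k a b, |s k a b| ≤ 1) (ho : o = 1 ∨ o = -1) {w : ι → ℝ} {q : ℝ}
    (hX : ∑ i ∈ range n, En Mx n T x1 M3 (i + 1) w ≤ q)
    {W : ℕ → ℤ → ℝ} {e : ℝ} (he : 0 ≤ e) (hW0 : ∀ k x0, 0 ≤ W k x0)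
    (hW : ∀ k < n, ∀ j, ∑ x0 ∈ iv k j, W k x0 ≤ e * 2 ^ k) (L : ℕ) (sh : ℤ) {y : ℤ}
    (hy : y ∈ iv n M3) :
    ∑ k ∈ range n, ∑ x0 ∈ iv n T, W k x0 *
        nsq ((Rm Mx o x1 s n k x0 y - Rs Mx o x1 s n sh (k + 1) x0 (ix (k + 1) (y - sh))) *ᵥ w) ≤
      e * ((98 + 32 * (L : ℝ) ^ 3) * q + 4 * farE Mx n T x1 M3 L sh y w) := by
  set D : ℕ → ℤ → ℝ := fun k x0 =>
    nsq ((Rs Mx o x1 s n sh k x0 (ix k (y - sh)) - Rm Mx o x1 s n k x0 y) *ᵥ w) with hD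
  have hD0 : ∀ k x0, 0 ≤ D k x0 := fun _ _ => nsq_nonneg _
  have p1 : ∀ k < n, ∀ x0, nsq ((Rm Mx o x1 s n k x0 y -
      Rs Mx o x1 s n sh (k + 1) x0 (ix (k + 1) (y - sh))) *ᵥ w) ≤
      2 * D (k + 1) x0 + 2 * Nn Mx o x1 (k + 1) x0 y w := by
    intro k hk x0
    have e1 : (Rm Mx o x1 s n k x0 y -
        Rs Mx o x1 s n sh (k + 1) x0 (ix (k + 1) (y - sh))) *ᵥ w =
        Lm Mx o x1 s (k + 1) x0 y *ᵥ w -
        (Rs Mx o x1 s n sh (k + 1) x0 (ix (k + 1) (y - sh)) - Rm Mx o x1 s n (k + 1) x0 y) *ᵥ w := by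
      have e2 : Rm Mx o x1 s n k x0 y = Lm Mx o x1 s (k + 1) x0 y + Rm Mx o x1 s n (k + 1) x0 y := by
        unfold H841.Rm
        rw [sum_eq_sum_Ico_succ_bot hk]
      rw [e2]
      simp only [sub_mulVec, add_mulVec]
      abel
    rw [e1]
    have h1 := nsq_sub_le (Lm Mx o x1 s (k + 1) x0 y *ᵥ w)
      ((Rs Mx o x1 s n sh (k + 1) x0 (ix (k + 1) (y - sh)) - Rm Mx o x1 s n (k + 1) x0 y) *ᵥ w)
    have h3 := Lm_le (Mx := Mx) (o := o) (x1 := x1) hs1 (k + 1) x0 y w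
    simp only [hD]
    linarith
  set W' : ℕ → ℤ → ℝ := fun k x0 => if k = 0 then 0 else W (k - 1) x0 with hW'
  have hWp : ∀ k x0, W' (k + 1) x0 = W k x0 := fun k x0 => by
    simp only [hW', Nat.succ_ne_zero, if_false, Nat.add_sub_cancel]
  have hW0' : ∀ k x0, 0 ≤ W' k x0 := by
    intro k x0
    simp only [hW']
    split_ifs
    · exact le_rfl
    · exact hW0 _ _
  have hWs' : ∀ k ≤ n, ∀ j, ∑ x0 ∈ iv k j, W' k x0 ≤ e * 2 ^ k := by
    intro k hk j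
    rcases k with _ | k
    · simp only [hW', if_true, sum_const_zero]
      positivity
    · simp only [hWp]
      have h := wt_cell (fun x => hW0 k x) (fun j => hW k (by omega) j) (k + 1) j
      have e2 : k - (k + 1) = 0 := by omega
      rw [e2, pow_zero, mul_one] at h
      exact h
  have q2 := dev_pt (s := s) hs1 ho hX he hW0' hWs' L sh hy
  have q2' : ∑ k ∈ range n, ∑ x0 ∈ iv n T, W k x0 * D (k + 1) x0 ≤
      ∑ k ∈ range (n + 1), ∑ x0 ∈ iv n T, W' k x0 * D k x0 := by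
    rw [sum_range_succ']
    have h1 : 0 ≤ ∑ x0 ∈ iv n T, W' 0 x0 * D 0 x0 :=
      sum_nonneg fun x _ => mul_nonneg (hW0' _ _) (hD0 _ _)
    have h2 : ∑ k ∈ range n, ∑ x0 ∈ iv n T, W k x0 * D (k + 1) x0 =
        ∑ k ∈ range n, ∑ x0 ∈ iv n T, W' (k + 1) x0 * D (k + 1) x0 := by
      refine sum_congr rfl fun k _ => sum_congr rfl fun x _ => ?_
      rw [hWp]
    rw [h2]
    linarith
  have q3 : ∑ k ∈ range n, ∑ x0 ∈ iv n T, W k x0 * Nn Mx o x1 (k + 1) x0 y w ≤ e * q := by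
    have hy2 := hy
    rw [mem_iv] at hy2
    have h5 : ∀ k ∈ range n, ∑ x0 ∈ iv n T, W k x0 * Nn Mx o x1 (k + 1) x0 y w ≤
        e * En Mx n T x1 M3 (k + 1) w := by
      intro k hk
      rw [mem_range] at hk
      have h := wt_Nn (Mx := Mx) (x1 := x1) (T := T) (M3 := M3) ho (fun x => hW0 k x)
        (fun j => hW k hk j) (i := k + 1) hk (p := y) (by omega) (by omega) w
      have e2 : k - (k + 1) = 0 := by omega
      rw [e2, pow_zero, mul_one] at h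
      exact h
    refine (sum_le_sum h5).trans ?_
    rw [← mul_sum]
    exact mul_le_mul_of_nonneg_left hX he
  refine (sum_le_sum fun k hk => sum_le_sum fun x0 _ =>
    mul_le_mul_of_nonneg_left (p1 k (mem_range.1 hk) x0) (hW0 k x0)).trans ?_
  have e5 : ∑ k ∈ range n, ∑ x0 ∈ iv n T, W k x0 *
      (2 * D (k + 1) x0 + 2 * Nn Mx o x1 (k + 1) x0 y w) =
      2 * (∑ k ∈ range n, ∑ x0 ∈ iv n T, W k x0 * D (k + 1) x0) +
      2 * ∑ k ∈ range n, ∑ x0 ∈ iv n T, W k x0 * Nn Mx o x1 (k + 1) x0 y w := by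
    simp only [mul_sum, ← sum_add_distrib]
    refine sum_congr rfl fun k _ => sum_congr rfl fun x _ => ?_
    ring
  rw [e5]
  have r2 := q2'.trans q2
  refine (add_le_add (mul_le_mul_of_nonneg_left r2 (by norm_num : (0 : ℝ) ≤ 2))
    (mul_le_mul_of_nonneg_left q3 (by norm_num : (0 : ℝ) ≤ 2))).trans (le_of_eq ?_)
  ring

end point

/-! ### The energy of the slot difference -/

/-- the far layers at the point `(z, x)`, all the cells of `x₀` -/
def farR (l : ℝ) (K : ℕ) (M : Pt) (u : ℤ → ℤ → ι → ℝ) (L : ℕ) (h z x : ℤ) (w : ι → ℝ) : ℝ :=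
  ∑ t ∈ rt M, farE (MxR l K M u x) K t x M.2.2 L h z w

theorem farR_nonneg (l : ℝ) (K : ℕ) (M : Pt) (u : ℤ → ℤ → ι → ℝ) (L : ℕ) (h z x : ℤ)
    (w : ι → ℝ) : 0 ≤ farR l K M u L h z x w :=
  sum_nonneg fun _ _ => farE_nonneg _ _ _ _

theorem card_rt (M : Pt) : ((rt M).card : ℝ) = 3 := by
  unfold H677.rt
  rw [Int.card_Icc]
  have : -(M.1 + M.2.1 + M.2.2) - 1 + 1 - (-(M.1 + M.2.1 + M.2.2) - 3) = 3 := by ring
  rw [this]
  have h2 : Int.toNat 3 = 3 := rfl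
  rw [h2]
  norm_num

/-- **The energy of the slot difference.** `C = φ v` with line energies `e` of `φ`. -/
theorem eW_le (Al : ℕ → Pt → Prop) {o : ℤ} (ho : o = 1 ∨ o = -1) (K : ℕ) (M : Pt)
    {sg : ℕ → Pt → ℝ} (hsg : ∀ i m, |sg i m| ≤ 1) {l : ℝ} (hl : 0 < l)
    (u v : ℤ → ℤ → ι → ℝ) (C : FamV ι) {φ : ℤ → ℕ → ℤ → ℤ → ℝ} {e : ℝ} (he : 0 ≤ e)
    (hC : ∀ x0, ∀ k < K, ∀ z ∈ iv K M.2.2, ∀ x ∈ iv K M.1,
      C x0 (k + 1) z x = φ x0 (k + 1) z x • v x z)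
    (hφ : ∀ k < K, ∀ j, ∀ z ∈ iv K M.2.2, ∀ x ∈ iv K M.1,
      ∑ x0 ∈ iv k j, φ x0 (k + 1) z x ^ 2 ≤ e * 2 ^ k) (L : ℕ) (h : ℤ) :
    eW Al o K M sg l u C h ≤ ∑ z ∈ iv K M.2.2, ∑ x ∈ iv K M.1,
      e * (3 * (98 + 32 * (L : ℝ) ^ 3) * (2 ^ K * QR l K M u x (v x z)) +
        4 * farR l K M u L h z x (v x z)) := by
  have e1 : eW Al o K M sg l u C h = ∑ z ∈ iv K M.2.2, ∑ x ∈ iv K M.1, ∑ t ∈ rt M,
      ∑ k ∈ range K, ∑ x0 ∈ iv K t, dW Al o K M sg l u C h x0 k z x ⬝ᵥ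
        dW Al o K M sg l u C h x0 k z x := by
    unfold eW
    calc ∑ t ∈ rt M, ∑ x0 ∈ iv K t, ∑ k ∈ range K, ∑ z ∈ iv K M.2.2, ∑ x ∈ iv K M.1,
        dW Al o K M sg l u C h x0 k z x ⬝ᵥ dW Al o K M sg l u C h x0 k z x
        = ∑ t ∈ rt M, ∑ z ∈ iv K M.2.2, ∑ x ∈ iv K M.1, ∑ k ∈ range K, ∑ x0 ∈ iv K t,
          dW Al o K M sg l u C h x0 k z x ⬝ᵥ dW Al o K M sg l u C h x0 k z x := by
          refine sum_congr rfl fun t _ => ?_
          have a1 : ∀ x0 ∈ iv K t, ∑ k ∈ range K, ∑ z ∈ iv K M.2.2, ∑ x ∈ iv K M.1,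
              dW Al o K M sg l u C h x0 k z x ⬝ᵥ dW Al o K M sg l u C h x0 k z x =
              ∑ z ∈ iv K M.2.2, ∑ x ∈ iv K M.1, ∑ k ∈ range K,
              dW Al o K M sg l u C h x0 k z x ⬝ᵥ dW Al o K M sg l u C h x0 k z x := by
            intro x0 _
            rw [sum_comm]
            refine sum_congr rfl fun z _ => ?_
            rw [sum_comm]
          rw [sum_congr rfl a1, sum_comm]
          refine sum_congr rfl fun z _ => ?_
          rw [sum_comm]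
          refine sum_congr rfl fun x _ => ?_
          rw [sum_comm]
      _ = _ := by
          rw [sum_comm]
          refine sum_congr rfl fun z _ => ?_
          rw [sum_comm]
  rw [e1]
  refine sum_le_sum fun z hz => sum_le_sum fun x hx => ?_
  have e2 : ∀ t ∈ rt M, ∑ k ∈ range K, ∑ x0 ∈ iv K t, dW Al o K M sg l u C h x0 k z x ⬝ᵥ
      dW Al o K M sg l u C h x0 k z x ≤
      e * ((98 + 32 * (L : ℝ) ^ 3) * (2 ^ K * QR l K M u x (v x z)) +
        4 * farE (MxR l K M u x) K t x M.2.2 L h z (v x z)) := by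
    intro t _
    have e3 := dR_pt (s := sR Al o K M sg x) (fun k a b => sR_le hsg x k a b) ho
      (hXR hl K M u x t M.2.2 (v x z)) (W := fun k x0 => φ x0 (k + 1) z x ^ 2) he
      (fun k x0 => sq_nonneg _) (fun k hk j => hφ k hk j z hz x hx) L h hz
    refine le_trans (le_of_eq ?_) e3
    refine sum_congr rfl fun k hk => sum_congr rfl fun x0 _ => ?_
    rw [mem_range] at hk
    unfold dW
    rw [sl_Rm, sl'_Rs, hC x0 k hk z hz x hx, mulVec_smul, smul_dotProduct, dotProduct_smul,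
      smul_eq_mul, smul_eq_mul]
    unfold H43.nsq
    ring
  refine (sum_le_sum e2).trans (le_of_eq ?_)
  unfold farR
  rw [← mul_sum, sum_add_distrib, sum_const, nsmul_eq_mul, card_rt, ← mul_sum]
  ring

end

end Vale.Agent.P141.H58
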