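import Vale.Agent.P141.H58.EW
import Vale.Agent.P141.H403.FarA

/-!
# P141, line (A), flow part: the shift error, number of the energy factor

* `farEA` : the far layers at a point, only the scales `k` with `al k`; `dev_ptA`, `dR_ptA` :
  `dev_pt`, `dR_pt` for weights which vanish at the other scales;
* `bE` : the bound of the energy of one layer by the norm of the vector, `bE_sum`;
* `eW_leA` : the energy of the slot difference, far layers of the alive scales only;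
* `farEA_le`, `far_tot` : the far layers over the root, thin fibres `fib`;
* `eW_num` : **the number of the energy factor**.
-/

namespace Vale.Agent.P141.H58

open Finset Matrix
open Vale.Agent.P141.PL (Pt iv hs ix mem_iv ix_ix cb mem_cb cx)
open Vale.Agent.P141.PL.H560 (cbs bx0)
open Vale.Agent.P141.H677 (GA RT MT KT GT tr_T MT_mulVec nd3 thN sN cP cP_ix mem_sN rt rv)
open Vale.Agent.P141.H677.Sk
open Vale.Agent.P141.H922 (ck)
open Vale.Agent.P141.H43 (avv nsq nsq_nonneg)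
open Vale.Agent.P141.H841 (Lm Rm Rs Nn Nn_nonneg om om_nonneg Lm_le nsq_add_le nsq_sub_le)
open Vale.Agent.P141.H876 (En En_nonneg wn dev_sum wt_Nn wt_cell)

noncomputable section

open scoped Classical

variable {ι : Type} [Fintype ι] [DecidableEq ι]

/-! ### One point, only the alive scales -/

section point

variable {Mx : ℕ → ℤ → Matrix ι ι ℝ} {o x1 T M3 : ℤ} {n : ℕ} {s : ℕ → ℤ → ℤ → ℝ}

/-- the far layers at the point `y`, scales `k` with `al k` -/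
def farEA (al : ℕ → Prop) (Mx : ℕ → ℤ → Matrix ι ι ℝ) (n : ℕ) (T x1 M3 : ℤ) (L : ℕ) (sh y : ℤ)
    (w : ι → ℝ) : ℝ :=
  ∑ k ∈ range (n + 1), ∑ i ∈ range n,
    (if al k ∧ k + L ≤ i then om sh k i y * En Mx n T x1 M3 (i + 1) w else 0)

omit [DecidableEq ι] in
theorem farEA_nonneg (al : ℕ → Prop) (L : ℕ) (sh y : ℤ) (w : ι → ℝ) :
    0 ≤ farEA al Mx n T x1 M3 L sh y w := by
  refine sum_nonneg fun k _ => sum_nonneg fun i _ => ?_
  split_ifs
  · exact mul_nonneg (om_nonneg _ _ _ _) (En_nonneg _ _)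
  · exact le_rfl

omit [DecidableEq ι] in
/-- **The deviation at one point, all scales.** -/
theorem dev_ptA (hs1 : ∀ k a b, |s k a b| ≤ 1) (ho : o = 1 ∨ o = -1) {w : ι → ℝ} {q : ℝ}
    (hX : ∑ i ∈ range n, En Mx n T x1 M3 (i + 1) w ≤ q) (al : ℕ → Prop)
    {W : ℕ → ℤ → ℝ} {e : ℝ} (he : 0 ≤ e) (hW0 : ∀ k x0, 0 ≤ W k x0)
    (hal : ∀ k ≤ n, ¬ al k → ∀ x0, W k x0 = 0)
    (hW : ∀ k ≤ n, ∀ j, ∑ x0 ∈ iv k j, W k x0 ≤ e * 2 ^ k) (L : ℕ) (sh : ℤ) {y : ℤ}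
    (hy : y ∈ iv n M3) :
    ∑ k ∈ range (n + 1), ∑ x0 ∈ iv n T, W k x0 *
        nsq ((Rs Mx o x1 s n sh k x0 (ix k (y - sh)) - Rm Mx o x1 s n k x0 y) *ᵥ w) ≤
      2 * e * ((24 + 8 * (L : ℝ) ^ 3) * q + farEA al Mx n T x1 M3 L sh y w) := by
  have e1 : ∀ k ∈ range (n + 1), ∑ x0 ∈ iv n T, W k x0 *
      nsq ((Rs Mx o x1 s n sh k x0 (ix k (y - sh)) - Rm Mx o x1 s n k x0 y) *ᵥ w) ≤
      2 * e * (∑ i ∈ range n, (if i + 1 ≤ k + L then
          om sh k i y * 2 ^ (k - (i + 1)) * En Mx n T x1 M3 (i + 1) w else 0) +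
        ∑ i ∈ range n, (if al k ∧ k + L ≤ i then
          om sh k i y * En Mx n T x1 M3 (i + 1) w else 0)) := by
    intro k hk
    rw [mem_range] at hk
    by_cases hk2 : al k
    · refine (dev_sum hs1 ho (by omega) (fun x => hW0 k x) (fun j => hW k (by omega) j) sh hy
        w).trans ?_
      refine mul_le_mul_of_nonneg_left ?_ (by positivity)
      rw [← sum_add_distrib]
      refine sum_le_sum fun i _ => ?_
      by_cases h : i + 1 ≤ k + L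
      · rw [if_pos h, if_neg (by omega), add_zero]
      · rw [if_neg h, if_pos ⟨hk2, by omega⟩, zero_add]
        have e2 : k - (i + 1) = 0 := by omega
        rw [e2, pow_zero, mul_one]
    · have h0 : ∑ x0 ∈ iv n T, W k x0 *
          nsq ((Rs Mx o x1 s n sh k x0 (ix k (y - sh)) - Rm Mx o x1 s n k x0 y) *ᵥ w) = 0 :=
        sum_eq_zero fun x0 _ => by rw [hal k (by omega) hk2 x0, zero_mul]
      rw [h0]
      refine mul_nonneg (by positivity) (add_nonneg (sum_nonneg fun i _ => ?_)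
        (sum_nonneg fun i _ => ?_))
      · split_ifs
        · exact mul_nonneg (mul_nonneg (om_nonneg _ _ _ _) (by positivity)) (En_nonneg _ _)
        · exact le_rfl
      · split_ifs
        · exact mul_nonneg (om_nonneg _ _ _ _) (En_nonneg _ _)
        · exact le_rfl
  refine (sum_le_sum e1).trans ?_
  rw [← mul_sum, sum_add_distrib]
  refine mul_le_mul_of_nonneg_left (add_le_add ?_ le_rfl) (by positivity)
  refine (H210.near_E n L sh y (E := fun i => En Mx n T x1 M3 (i + 1) w)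
    fun i => En_nonneg _ _).trans ?_
  exact mul_le_mul_of_nonneg_left hX (by positivity)

omit [DecidableEq ι] in
/-- **The error of the slot at one point, all scales.** -/
theorem dR_ptA (hs1 : ∀ k a b, |s k a b| ≤ 1) (ho : o = 1 ∨ o = -1) {w : ι → ℝ} {q : ℝ}
    (hX : ∑ i ∈ range n, En Mx n T x1 M3 (i + 1) w ≤ q) (al : ℕ → Prop)
    {W : ℕ → ℤ → ℝ} {e : ℝ} (he : 0 ≤ e) (hW0 : ∀ k x0, 0 ≤ W k x0)
    (hal : ∀ k < n, ¬ al (k + 1) → ∀ x0, W k x0 = 0)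
    (hW : ∀ k < n, ∀ j, ∑ x0 ∈ iv k j, W k x0 ≤ e * 2 ^ k) (L : ℕ) (sh : ℤ) {y : ℤ}
    (hy : y ∈ iv n M3) :
    ∑ k ∈ range n, ∑ x0 ∈ iv n T, W k x0 *
        nsq ((Rm Mx o x1 s n k x0 y - Rs Mx o x1 s n sh (k + 1) x0 (ix (k + 1) (y - sh))) *ᵥ w) ≤
      e * ((98 + 32 * (L : ℝ) ^ 3) * q + 4 * farEA al Mx n T x1 M3 L sh y w) := by
  set D : ℕ → ℤ → ℝ := fun k x0 =>
    nsq ((Rs Mx o x1 s n sh k x0 (ix k (y - sh)) - Rm Mx o x1 s n k x0 y) *ᵥ w) with hD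
  have hD0 : ∀ k x0, 0 ≤ D k x0 := fun _ _ => nsq_nonneg _
  have p1 : ∀ k < n, ∀ x0, nsq ((Rm Mx o x1 s n k x0 y -
      Rs Mx o x1 s n sh (k + 1) x0 (ix (k + 1) (y - sh))) *ᵥ w) ≤
      2 * D (k + 1) x0 + 2 * Nn Mx o x1 (k + 1) x0 y w := by
    intro k hk x0
    have e1 : (Rm Mx o x1 s n k x0 y -
        Rs Mx o x1 s n sh (k + 1) x0 (ix (k + 1) (y - sh))) *ᵥ w =
        Lm Mx o x1 s (k + 1) x0 y *ᵥ w -
        (Rs Mx o x1 s n sh (k + 1) x0 (ix (k + 1) (y - sh)) - Rm Mx o x1 s n (k + 1) x0 y) *ᵥ w := by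
      have e2 : Rm Mx o x1 s n k x0 y = Lm Mx o x1 s (k + 1) x0 y + Rm Mx o x1 s n (k + 1) x0 y := by
        unfold H841.Rm
        rw [sum_eq_sum_Ico_succ_bot hk]
      rw [e2]
      simp only [sub_mulVec, add_mulVec]
      abel
    rw [e1]
    have h1 := nsq_sub_le (Lm Mx o x1 s (k + 1) x0 y *ᵥ w)
      ((Rs Mx o x1 s n sh (k + 1) x0 (ix (k + 1) (y - sh)) - Rm Mx o x1 s n (k + 1) x0 y) *ᵥ w)
    have h3 := Lm_le (Mx := Mx) (o := o) (x1 := x1) hs1 (k + 1) x0 y w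
    simp only [hD]
    linarith
  set W' : ℕ → ℤ → ℝ := fun k x0 => if k = 0 then 0 else W (k - 1) x0 with hW'
  have hWp : ∀ k x0, W' (k + 1) x0 = W k x0 := fun k x0 => by
    simp only [hW', Nat.succ_ne_zero, if_false, Nat.add_sub_cancel]
  have hW0' : ∀ k x0, 0 ≤ W' k x0 := by
    intro k x0
    simp only [hW']
    split_ifs
    · exact le_rfl
    · exact hW0 _ _
  have hal' : ∀ k ≤ n, ¬ al k → ∀ x0, W' k x0 = 0 := by
    intro k hk hk2 x0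
    rcases k with _ | k
    · simp only [hW', if_true]
    · rw [hWp]
      exact hal k (by omega) hk2 x0
  have hWs' : ∀ k ≤ n, ∀ j, ∑ x0 ∈ iv k j, W' k x0 ≤ e * 2 ^ k := by
    intro k hk j
    rcases k with _ | k
    · simp only [hW', if_true, sum_const_zero]
      positivity
    · simp only [hWp]
      have h := wt_cell (fun x => hW0 k x) (fun j => hW k (by omega) j) (k + 1) j
      have e2 : k - (k + 1) = 0 := by omega
      rw [e2, pow_zero, mul_one] at h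
      exact h
  have q2 := dev_ptA (s := s) hs1 ho hX al he hW0' hal' hWs' L sh hy
  have q2' : ∑ k ∈ range n, ∑ x0 ∈ iv n T, W k x0 * D (k + 1) x0 ≤
      ∑ k ∈ range (n + 1), ∑ x0 ∈ iv n T, W' k x0 * D k x0 := by
    rw [sum_range_succ']
    have h1 : 0 ≤ ∑ x0 ∈ iv n T, W' 0 x0 * D 0 x0 :=
      sum_nonneg fun x _ => mul_nonneg (hW0' _ _) (hD0 _ _)
    have h2 : ∑ k ∈ range n, ∑ x0 ∈ iv n T, W k x0 * D (k + 1) x0 =
        ∑ k ∈ range n, ∑ x0 ∈ iv n T, W' (k + 1) x0 * D (k + 1) x0 := by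
      refine sum_congr rfl fun k _ => sum_congr rfl fun x _ => ?_
      rw [hWp]
    rw [h2]
    linarith
  have q3 : ∑ k ∈ range n, ∑ x0 ∈ iv n T, W k x0 * Nn Mx o x1 (k + 1) x0 y w ≤ e * q := by
    have hy2 := hy
    rw [mem_iv] at hy2
    have h5 : ∀ k ∈ range n, ∑ x0 ∈ iv n T, W k x0 * Nn Mx o x1 (k + 1) x0 y w ≤
        e * En Mx n T x1 M3 (k + 1) w := by
      intro k hk
      rw [mem_range] at hk
      have h := wt_Nn (Mx := Mx) (x1 := x1) (T := T) (M3 := M3) ho (fun x => hW0 k x)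
        (fun j => hW k hk j) (i := k + 1) hk (p := y) (by omega) (by omega) w
      have e2 : k - (k + 1) = 0 := by omega
      rw [e2, pow_zero, mul_one] at h
      exact h
    refine (sum_le_sum h5).trans ?_
    rw [← mul_sum]
    exact mul_le_mul_of_nonneg_left hX he
  refine (sum_le_sum fun k hk => sum_le_sum fun x0 _ =>
    mul_le_mul_of_nonneg_left (p1 k (mem_range.1 hk) x0) (hW0 k x0)).trans ?_
  have e5 : ∑ k ∈ range n, ∑ x0 ∈ iv n T, W k x0 *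
      (2 * D (k + 1) x0 + 2 * Nn Mx o x1 (k + 1) x0 y w) =
      2 * (∑ k ∈ range n, ∑ x0 ∈ iv n T, W k x0 * D (k + 1) x0) +
      2 * ∑ k ∈ range n, ∑ x0 ∈ iv n T, W k x0 * Nn Mx o x1 (k + 1) x0 y w := by
    simp only [mul_sum, ← sum_add_distrib]
    refine sum_congr rfl fun k _ => sum_congr rfl fun x _ => ?_
    ring
  rw [e5]
  have r2 := q2'.trans q2
  refine (add_le_add (mul_le_mul_of_nonneg_left r2 (by norm_num : (0 : ℝ) ≤ 2))
    (mul_le_mul_of_nonneg_left q3 (by norm_num : (0 : ℝ) ≤ 2))).trans (le_of_eq ?_)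
  ring

/-! ### The energy of one layer by the norm -/

/-- the sum of the energies over the unit vectors -/
def bE (Mx : ℕ → ℤ → Matrix ι ι ℝ) (n : ℕ) (T x1 M3 : ℤ) (i : ℕ) : ℝ :=
  ∑ j : ι, En Mx n T x1 M3 (i + 1) (Pi.single j 1)

theorem bE_nonneg (i : ℕ) : 0 ≤ bE Mx n T x1 M3 i := sum_nonneg fun _ _ => En_nonneg _ _

theorem nsq_mulVec_le (N : Matrix ι ι ℝ) (w : ι → ℝ) :
    nsq (N *ᵥ w) ≤ (∑ j : ι, nsq (N *ᵥ Pi.single j 1)) * nsq w := by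
  have h1 : ∀ i : ι, (N *ᵥ w) i ^ 2 ≤ (∑ j : ι, N i j ^ 2) * ∑ j : ι, w j ^ 2 := by
    intro i
    unfold mulVec dotProduct
    exact sum_mul_sq_le_sq_mul_sq _ _ _
  have e1 : nsq (N *ᵥ w) = ∑ i : ι, (N *ᵥ w) i ^ 2 := by
    unfold H43.nsq dotProduct
    exact sum_congr rfl fun i _ => (sq _).symm
  have e2 : nsq w = ∑ j : ι, w j ^ 2 := by
    unfold H43.nsq dotProduct
    exact sum_congr rfl fun i _ => (sq _).symm
  have e3 : ∑ j : ι, nsq (N *ᵥ Pi.single j 1) = ∑ i : ι, ∑ j : ι, N i j ^ 2 := by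
    rw [sum_comm]
    refine sum_congr rfl fun j _ => ?_
    unfold H43.nsq dotProduct
    refine sum_congr rfl fun i _ => ?_
    rw [mulVec_single_one]
    simp only [Matrix.col_apply]
    ring
  rw [e1, e2, e3, sum_mul]
  exact sum_le_sum fun i _ => h1 i

theorem En_le_bE (i : ℕ) (w : ι → ℝ) :
    En Mx n T x1 M3 (i + 1) w ≤ bE Mx n T x1 M3 i * nsq w := by
  have e1 : bE Mx n T x1 M3 i * nsq w = 2 ^ (i + 1) * ∑ R ∈ wn n T x1 M3,
      ∑ m ∈ iv (n - (i + 1)) R, (∑ j : ι, nsq (Mx (i + 1) m *ᵥ Pi.single j 1)) * nsq w := by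
    unfold bE H876.En
    rw [← mul_sum, mul_assoc, sum_comm]
    congr 1
    rw [sum_mul]
    refine sum_congr rfl fun R _ => ?_
    rw [sum_comm, sum_mul]
  rw [e1]
  unfold H876.En
  refine mul_le_mul_of_nonneg_left ?_ (by positivity)
  exact sum_le_sum fun R _ => sum_le_sum fun m _ => nsq_mulVec_le _ _

end point

/-- **The sum over the layers, on the root.** -/
theorem bE_sum {l : ℝ} (hl : 0 < l) (K : ℕ) (M : Pt) (u : ℤ → ℤ → ι → ℝ) (x T M3 : ℤ) :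
    ∑ i ∈ range K, bE (MxR l K M u x) K T x M3 i ≤
      (2 * l)⁻¹ * ∑ y ∈ iv K M.2.1, u x y ⬝ᵥ u x y := by
  unfold bE
  rw [sum_comm]
  have h1 : ∀ j : ι, ∑ i ∈ range K, En (MxR l K M u x) K T x M3 (i + 1) (Pi.single j 1) ≤
      (2 * l)⁻¹ * ∑ y ∈ iv K M.2.1, u x y j ^ 2 := by
    intro j
    refine (hXR hl K M u x T M3 (Pi.single j 1)).trans (le_of_eq ?_)
    unfold QR
    rw [H677.GT_form]
    have e2 : ∀ y, u x y ⬝ᵥ (Pi.single j 1 : ι → ℝ) = u x y j := fun y => by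
      rw [dotProduct_single, mul_one]
    simp only [e2]
    have h2 : (2 : ℝ) ^ K ≠ 0 := by positivity
    field_simp
  refine (sum_le_sum fun j _ => h1 j).trans (le_of_eq ?_)
  rw [← mul_sum]
  congr 1
  rw [sum_comm]
  refine sum_congr rfl fun y _ => ?_
  unfold dotProduct
  exact sum_congr rfl fun j _ => sq _

/-! ### The energy of the slot difference -/

/-- the far layers at the point `(z, x)`, all the cells of `x₀`, alive scales -/
def farRA (al : ℕ → Prop) (l : ℝ) (K : ℕ) (M : Pt) (u : ℤ → ℤ → ι → ℝ) (L : ℕ) (h z x : ℤ)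
    (w : ι → ℝ) : ℝ :=
  ∑ t ∈ rt M, farEA al (MxR l K M u x) K t x M.2.2 L h z w

/-- **The energy of the slot difference.** `C = φ v` with line energies `e` of `φ`, `φ = 0` at the
time `k` unless `al k z x`. -/
theorem eW_leA (Al : ℕ → Pt → Prop) {o : ℤ} (ho : o = 1 ∨ o = -1) (K : ℕ) (M : Pt)
    {sg : ℕ → Pt → ℝ} (hsg : ∀ i m, |sg i m| ≤ 1) {l : ℝ} (hl : 0 < l)
    (u v : ℤ → ℤ → ι → ℝ) (C : FamV ι) {φ : ℤ → ℕ → ℤ → ℤ → ℝ} {e : ℝ} (he : 0 ≤ e)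
    (al : ℤ → ℤ → ℕ → Prop)
    (hC : ∀ x0, ∀ k < K, ∀ z ∈ iv K M.2.2, ∀ x ∈ iv K M.1,
      C x0 (k + 1) z x = φ x0 (k + 1) z x • v x z)
    (hal : ∀ x0, ∀ k < K, ∀ z ∈ iv K M.2.2, ∀ x ∈ iv K M.1, ¬ al z x (k + 1) →
      φ x0 (k + 1) z x = 0)
    (hφ : ∀ k < K, ∀ j, ∀ z ∈ iv K M.2.2, ∀ x ∈ iv K M.1,
      ∑ x0 ∈ iv k j, φ x0 (k + 1) z x ^ 2 ≤ e * 2 ^ k) (L : ℕ) (h : ℤ) :
    eW Al o K M sg l u C h ≤ ∑ z ∈ iv K M.2.2, ∑ x ∈ iv K M.1,
      e * (3 * (98 + 32 * (L : ℝ) ^ 3) * (2 ^ K * QR l K M u x (v x z)) +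
        4 * farRA (al z x) l K M u L h z x (v x z)) := by
  have e1 : eW Al o K M sg l u C h = ∑ z ∈ iv K M.2.2, ∑ x ∈ iv K M.1, ∑ t ∈ rt M,
      ∑ k ∈ range K, ∑ x0 ∈ iv K t, dW Al o K M sg l u C h x0 k z x ⬝ᵥ
        dW Al o K M sg l u C h x0 k z x := by
    unfold eW
    calc ∑ t ∈ rt M, ∑ x0 ∈ iv K t, ∑ k ∈ range K, ∑ z ∈ iv K M.2.2, ∑ x ∈ iv K M.1,
        dW Al o K M sg l u C h x0 k z x ⬝ᵥ dW Al o K M sg l u C h x0 k z x
        = ∑ t ∈ rt M, ∑ z ∈ iv K M.2.2, ∑ x ∈ iv K M.1, ∑ k ∈ range K, ∑ x0 ∈ iv K t,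
          dW Al o K M sg l u C h x0 k z x ⬝ᵥ dW Al o K M sg l u C h x0 k z x := by
          refine sum_congr rfl fun t _ => ?_
          have a1 : ∀ x0 ∈ iv K t, ∑ k ∈ range K, ∑ z ∈ iv K M.2.2, ∑ x ∈ iv K M.1,
              dW Al o K M sg l u C h x0 k z x ⬝ᵥ dW Al o K M sg l u C h x0 k z x =
              ∑ z ∈ iv K M.2.2, ∑ x ∈ iv K M.1, ∑ k ∈ range K,
              dW Al o K M sg l u C h x0 k z x ⬝ᵥ dW Al o K M sg l u C h x0 k z x := by
            intro x0 _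
            rw [sum_comm]
            refine sum_congr rfl fun z _ => ?_
            rw [sum_comm]
          rw [sum_congr rfl a1, sum_comm]
          refine sum_congr rfl fun z _ => ?_
          rw [sum_comm]
          refine sum_congr rfl fun x _ => ?_
          rw [sum_comm]
      _ = _ := by
          rw [sum_comm]
          refine sum_congr rfl fun z _ => ?_
          rw [sum_comm]
  rw [e1]
  refine sum_le_sum fun z hz => sum_le_sum fun x hx => ?_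
  have e2 : ∀ t ∈ rt M, ∑ k ∈ range K, ∑ x0 ∈ iv K t, dW Al o K M sg l u C h x0 k z x ⬝ᵥ
      dW Al o K M sg l u C h x0 k z x ≤
      e * ((98 + 32 * (L : ℝ) ^ 3) * (2 ^ K * QR l K M u x (v x z)) +
        4 * farEA (al z x) (MxR l K M u x) K t x M.2.2 L h z (v x z)) := by
    intro t _
    have e3 := dR_ptA (s := sR Al o K M sg x) (fun k a b => sR_le hsg x k a b) ho
      (hXR hl K M u x t M.2.2 (v x z)) (al z x) (W := fun k x0 => φ x0 (k + 1) z x ^ 2) he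
      (fun k x0 => sq_nonneg _)
      (fun k hk hk2 x0 => by
        have h5 := hal x0 k hk z hz x hx hk2
        show φ x0 (k + 1) z x ^ 2 = 0
        rw [h5]
        norm_num) (fun k hk j => hφ k hk j z hz x hx) L h hz
    refine le_trans (le_of_eq ?_) e3
    refine sum_congr rfl fun k hk => sum_congr rfl fun x0 _ => ?_
    rw [mem_range] at hk
    unfold dW
    rw [sl_Rm, sl'_Rs, hC x0 k hk z hz x hx, mulVec_smul, smul_dotProduct, dotProduct_smul,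
      smul_eq_mul, smul_eq_mul]
    unfold H43.nsq
    ring
  refine (sum_le_sum e2).trans (le_of_eq ?_)
  unfold farRA
  rw [← mul_sum, sum_add_distrib, sum_const, nsmul_eq_mul, card_rt, ← mul_sum]
  ring

/-! ### The number -/

theorem farEA_le {Mx : ℕ → ℤ → Matrix ι ι ℝ} {n : ℕ} {T x1 M3 : ℤ} (al : ℕ → Prop) (L : ℕ)
    (sh y : ℤ) (w : ι → ℝ) : farEA al Mx n T x1 M3 L sh y w ≤
      H403.farA n L (bE Mx n T x1 M3) al y * nsq w := by
  have h1 := H403.farA_om n L sh (b := bE Mx n T x1 M3) (fun i => bE_nonneg i) al y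
  refine le_trans ?_ (mul_le_mul_of_nonneg_right h1 (nsq_nonneg w))
  unfold farEA
  rw [sum_mul]
  refine sum_le_sum fun k _ => ?_
  rw [sum_mul]
  refine sum_le_sum fun i _ => ?_
  split_ifs
  · rw [mul_assoc]
    exact mul_le_mul_of_nonneg_left (En_le_bE i w) (om_nonneg _ _ _ _)
  · rw [zero_mul]

/-- **The far layers over the root.** -/
theorem far_tot {l : ℝ} (hl : 0 < l) (K : ℕ) (M : Pt) (u v : ℤ → ℤ → ι → ℝ)
    (al : ℤ → ℤ → ℕ → Prop) {lam1 S : ℝ} (hlam1 : 0 ≤ lam1)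
    (fib : ∀ x ∈ iv K M.1, ∀ k ≤ K, ∀ z ∈ iv K M.2.2, al z x k →
      ∑ y ∈ iv k (ix k z), v x y ⬝ᵥ v x y ≤ lam1 * 2 ^ k)
    (hu : ∑ x ∈ iv K M.1, ∑ y ∈ iv K M.2.1, u x y ⬝ᵥ u x y ≤ S) (L : ℕ) (h : ℤ) :
    ∑ z ∈ iv K M.2.2, ∑ x ∈ iv K M.1, farRA (al z x) l K M u L h z x (v x z) ≤
      96 * (2 ^ K * (((L : ℝ) + 2) ^ 2 + 2) / 2 ^ L) * (lam1 / l) * S := by
  rw [sum_comm]
  have h1 : ∀ x ∈ iv K M.1, ∑ z ∈ iv K M.2.2, farRA (al z x) l K M u L h z x (v x z) ≤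
      96 * (2 ^ K * (((L : ℝ) + 2) ^ 2 + 2) / 2 ^ L) * (lam1 / l) *
        ∑ y ∈ iv K M.2.1, u x y ⬝ᵥ u x y := by
    intro x hx
    unfold farRA
    rw [sum_comm]
    have h2 : ∀ t ∈ rt M, ∑ z ∈ iv K M.2.2, farEA (al z x) (MxR l K M u x) K t x M.2.2 L h z
        (v x z) ≤ 32 * (2 ^ K * (((L : ℝ) + 2) ^ 2 + 2) / 2 ^ L) * (lam1 / l) *
        ∑ y ∈ iv K M.2.1, u x y ⬝ᵥ u x y := by
      intro t _
      refine (sum_le_sum fun z _ => farEA_le (al z x) L h z (v x z)).trans ?_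
      have h3 := H403.farA_sum K L M.2.2 (b := bE (MxR l K M u x) K t x M.2.2)
        (fun i => bE_nonneg i) (al := fun k z => al z x k) (w := fun z => nsq (v x z)) hlam1
        (fun z => nsq_nonneg _) (fun k hk z hz ha => fib x hx k hk z hz ha)
      refine h3.trans ?_
      have h4 := bE_sum hl K M u x t M.2.2
      refine (mul_le_mul_of_nonneg_left h4 (by positivity)).trans (le_of_eq ?_)
      field_simp
      ring
    refine (sum_le_sum h2).trans (le_of_eq ?_)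
    rw [sum_const, nsmul_eq_mul, card_rt]
    ring
  refine (sum_le_sum h1).trans ?_
  rw [← mul_sum]
  exact mul_le_mul_of_nonneg_left hu (by positivity)

/-- **The number of the energy factor.** -/
theorem eW_num (Al : ℕ → Pt → Prop) {o : ℤ} (ho : o = 1 ∨ o = -1) (K : ℕ) (M : Pt)
    {sg : ℕ → Pt → ℝ} (hsg : ∀ i m, |sg i m| ≤ 1) {l : ℝ} (hl : 0 < l)
    (u v : ℤ → ℤ → ι → ℝ) (C : FamV ι) {φ : ℤ → ℕ → ℤ → ℤ → ℝ} {e : ℝ} (he : 0 ≤ e)
    (al : ℤ → ℤ → ℕ → Prop)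
    (hC : ∀ x0, ∀ k < K, ∀ z ∈ iv K M.2.2, ∀ x ∈ iv K M.1,
      C x0 (k + 1) z x = φ x0 (k + 1) z x • v x z)
    (hal : ∀ x0, ∀ k < K, ∀ z ∈ iv K M.2.2, ∀ x ∈ iv K M.1, ¬ al z x (k + 1) →
      φ x0 (k + 1) z x = 0)
    (hφ : ∀ k < K, ∀ j, ∀ z ∈ iv K M.2.2, ∀ x ∈ iv K M.1,
      ∑ x0 ∈ iv k j, φ x0 (k + 1) z x ^ 2 ≤ e * 2 ^ k) {lam1 P s : ℝ} (hlam1 : 0 ≤ lam1)
    (hP0 : 0 ≤ P)
    (fib : ∀ x ∈ iv K M.1, ∀ k ≤ K, ∀ z ∈ iv K M.2.2, al z x k →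
      ∑ y ∈ iv k (ix k z), v x y ⬝ᵥ v x y ≤ lam1 * 2 ^ k)
    (pot : ∀ x ∈ iv K M.1, ∀ w : ι → ℝ,
      ((2 : ℝ) ^ K)⁻¹ * ∑ y ∈ iv K M.2.1, (u x y ⬝ᵥ w) ^ 2 ≤ P * (w ⬝ᵥ w))
    (hu : ∑ x ∈ iv K M.1, ∑ y ∈ iv K M.2.1, u x y ⬝ᵥ u x y ≤ s * 4 ^ K)
    (hv : ∑ z ∈ iv K M.2.2, ∑ x ∈ iv K M.1, v x z ⬝ᵥ v x z ≤ s * 4 ^ K) (L : ℕ) (h : ℤ) :
    eW Al o K M sg l u C h ≤ 8 ^ K * s * e * (3 / 2 * (98 + 32 * (L : ℝ) ^ 3) * (P / l) +
      384 * ((((L : ℝ) + 2) ^ 2 + 2) / 2 ^ L) * (lam1 / l)) := by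
  refine (eW_leA Al ho K M hsg hl u v C he al hC hal hφ L h).trans ?_
  have e1 : ∑ z ∈ iv K M.2.2, ∑ x ∈ iv K M.1,
      e * (3 * (98 + 32 * (L : ℝ) ^ 3) * (2 ^ K * QR l K M u x (v x z)) +
        4 * farRA (al z x) l K M u L h z x (v x z)) =
      e * (3 * (98 + 32 * (L : ℝ) ^ 3) * (2 ^ K * ∑ z ∈ iv K M.2.2, ∑ x ∈ iv K M.1,
        QR l K M u x (v x z)) + 4 * ∑ z ∈ iv K M.2.2, ∑ x ∈ iv K M.1,
        farRA (al z x) l K M u L h z x (v x z)) := by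
    simp only [mul_sum, ← sum_add_distrib]
  rw [e1]
  have h1 : ∑ z ∈ iv K M.2.2, ∑ x ∈ iv K M.1, QR l K M u x (v x z) ≤
      (2 * l)⁻¹ * P * (s * 4 ^ K) := by
    have h2 : ∀ z ∈ iv K M.2.2, ∀ x ∈ iv K M.1, QR l K M u x (v x z) ≤
        (2 * l)⁻¹ * P * (v x z ⬝ᵥ v x z) := by
      intro z _ x hx
      unfold QR
      rw [H677.GT_form, mul_assoc]
      exact mul_le_mul_of_nonneg_left (pot x hx _) (by positivity)
    refine (sum_le_sum fun z hz => sum_le_sum fun x hx => h2 z hz x hx).trans ?_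
    simp only [← mul_sum]
    exact mul_le_mul_of_nonneg_left hv (by positivity)
  have h3 := far_tot hl K M u v al hlam1 fib hu L h
  have h4 : (8 : ℝ) ^ K = 2 ^ K * 4 ^ K := by rw [← mul_pow]; norm_num
  calc e * (3 * (98 + 32 * (L : ℝ) ^ 3) * (2 ^ K * ∑ z ∈ iv K M.2.2, ∑ x ∈ iv K M.1,
        QR l K M u x (v x z)) + 4 * ∑ z ∈ iv K M.2.2, ∑ x ∈ iv K M.1,
        farRA (al z x) l K M u L h z x (v x z))
      ≤ e * (3 * (98 + 32 * (L : ℝ) ^ 3) * (2 ^ K * ((2 * l)⁻¹ * P * (s * 4 ^ K))) +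
        4 * (96 * (2 ^ K * (((L : ℝ) + 2) ^ 2 + 2) / 2 ^ L) * (lam1 / l) * (s * 4 ^ K))) := by
        refine mul_le_mul_of_nonneg_left (add_le_add (mul_le_mul_of_nonneg_left
          (mul_le_mul_of_nonneg_left h1 (by positivity)) (by positivity))
          (mul_le_mul_of_nonneg_left h3 (by norm_num))) he
    _ = _ := by
        rw [h4]
        field_simp
        ring

end

end Vale.Agent.P141.H58
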